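import Crest.Agent.N221.A1.Defs
import Crest.Agent.N221.Hm.Defs
import Crest.Agent.N221.Ch.Lin

/-! Row 221, step A1: basic facts on the model `PD` (helper90); the statement `BrS`. -/

set_option autoImplicit false

open Set Filter Topology Metric
open scoped ContDiff RealInnerProductSpace
open Crest.GeometryTopology.Submanifold

noncomputable section

namespace Crest.Agent.N221

variable {m : ℕ}

/-- `om` as a continuous bilinear map -/
def omL (m : ℕ) : ZZ m →L[ℝ] ZZ m →L[ℝ] ℝ :=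
  (innerSL ℝ : Euc m →L[ℝ] Euc m →L[ℝ] ℝ).bilinearComp (ContinuousLinearMap.snd ℝ _ _)
      (ContinuousLinearMap.fst ℝ _ _) -
    (innerSL ℝ : Euc m →L[ℝ] Euc m →L[ℝ] ℝ).bilinearComp (ContinuousLinearMap.fst ℝ _ _)
      (ContinuousLinearMap.snd ℝ _ _)

@[simp] lemma omL_apply (v w : ZZ m) : omL m v w = om v w := by
  simp [omL, om, real_inner_comm]

lemma om_nd {v : ZZ m} (h : ∀ w, om v w = 0) : v = 0 := by
  have h1 := h (v.2, 0)
  have h2 := h (0, v.1)
  simp only [om, inner_zero_left, inner_zero_right, sub_zero, zero_sub, neg_eq_zero,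
    inner_self_eq_zero] at h1 h2
  exact Prod.ext h2 h1

namespace PD

variable (P : PD m)

/-- the moves of the pseudogroup in the sense of `Hm` -/
def mv : Set (Hm.Mv (ZZ m)) := {g | IsOpen g.U ∧ ∀ z ∈ g.U, P.R z g.f g.s ∧
  HasFDerivAt g.f (g.L z : ZZ m →L[ℝ] ZZ m) z}

/-- `Hm.Cls` for the orientation preserving germs only -/
structure Cl0 (O : Set (ZZ m)) (h : ZZ m → Submodule ℝ (ZZ m →L[ℝ] ZZ m)) : Prop where
  sub : Hm.Sub O P.W
  sm : Hm.Sm h O
  lie : ∀ z ∈ O, Hu.IsLie (h z)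
  sp : ∀ z ∈ O, ∀ X ∈ h z, ∀ v w, om (X v) w + om v (X w) = 0
  tr0 : ∀ z ∈ O, ∀ X ∈ h z, ∀ Y ∈ h z, Hu.tr (P.pi z * (X * Y - Y * X)) = 0
  eqv : ∀ z ∈ O, ∀ T, P.R z T false → T z ∈ O → ∀ L : ZZ m ≃L[ℝ] ZZ m,
    HasFDerivAt T (L : ZZ m →L[ℝ] ZZ m) z → ∀ X, X ∈ h z ↔ L.conjContinuousAlgEquiv X ∈ h (T z)
  log : ∀ z ∈ O, ∀ T, P.R z T false → T z = z → ∀ L : ZZ m ≃L[ℝ] ZZ m,
    HasFDerivAt T (L : ZZ m →L[ℝ] ZZ m) z → ∀ D, Hm.IsLog L D → D ∈ h z

end PD

/-- the bridge from G0 to the hull (helper93) -/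
def BrS : Prop := ∀ (m : ℕ) (P : PD m), P.Ok → P.Flag → ∃ O h, P.Cl0 O h

namespace PD

variable {P : PD m} {z v w : ZZ m} {i fl : Bool} {T : ZZ m → ZZ m}

lemma mem_E : v ∈ P.E i z ↔ v.2 = P.S i z v.1 := LinearMap.mem_graph_iff _ _

lemma mk_mem_E (x : Euc m) : (x, P.S i z x) ∈ P.E i z := mem_E.2 rfl

lemma pi_apply (v : ZZ m) : P.pi z v =
    (Ring.inverse (P.S true z - P.S false z) (v.2 - P.S false z v.1),
      P.S true z (Ring.inverse (P.S true z - P.S false z) (v.2 - P.S false z v.1))) := rfl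

lemma pi_mem (v : ZZ m) : P.pi z v ∈ P.E true z := mem_E.2 rfl

lemma pi_s (h : v ∈ P.E false z) : P.pi z v = 0 := by
  rw [pi_apply, mem_E.1 h, sub_self, map_zero, map_zero]; rfl

lemma E_bound (h : v ∈ P.E i z) : ‖v‖ ≤ (1 + ‖P.S i z‖) * ‖v.1‖ := by
  have h1 := (P.S i z).le_opNorm v.1
  rw [← mem_E.1 h] at h1
  have := norm_nonneg (P.S i z); have := norm_nonneg v.1
  rw [Prod.norm_def]
  exact max_le (by nlinarith) (by nlinarith)

namespace Ok

variable (h : P.Ok)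
include h

lemma inv_S (hz : z ∈ P.W) (x : Euc m) :
    Ring.inverse (P.S true z - P.S false z) (P.S true z x - P.S false z x) = x := by
  have := congrArg (fun A : Euc m →L[ℝ] Euc m => A x) (Ring.inverse_mul_cancel _ (h.unit z hz))
  simpa using this

lemma S_inv (hz : z ∈ P.W) (x : Euc m) :
    P.S true z (Ring.inverse (P.S true z - P.S false z) x) -
      P.S false z (Ring.inverse (P.S true z - P.S false z) x) = x := by
  have := congrArg (fun A : Euc m →L[ℝ] Euc m => A x) (Ring.mul_inverse_cancel _ (h.unit z hz))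
  simpa using this

lemma pi_u (hz : z ∈ P.W) (hv : v ∈ P.E true z) : P.pi z v = v := by
  rw [pi_apply, mem_E.1 hv, h.inv_S hz]
  exact Prod.ext rfl (mem_E.1 hv).symm

lemma sub_pi (hz : z ∈ P.W) (v : ZZ m) : v - P.pi z v ∈ P.E false z := by
  have := h.S_inv hz (v.2 - P.S false z v.1)
  rw [mem_E, pi_apply]
  simp only [Prod.fst_sub, Prod.snd_sub, map_sub] at this ⊢
  rw [sub_eq_iff_eq_add] at this
  rw [sub_eq_iff_eq_add.1 (sub_eq_iff_eq_add.2 this)]
  abel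

lemma pi_eq_self (hz : z ∈ P.W) : P.pi z v = v ↔ v ∈ P.E true z :=
  ⟨fun e => e ▸ pi_mem v, h.pi_u hz⟩

lemma pi_eq_zero (hz : z ∈ P.W) : P.pi z v = 0 ↔ v ∈ P.E false z :=
  ⟨fun e => by simpa [e] using h.sub_pi hz v, pi_s⟩

lemma pi_pi (hz : z ∈ P.W) (v : ZZ m) : P.pi z (P.pi z v) = P.pi z v := h.pi_u hz (pi_mem v)

/-- `pr π b` fixes `E (!b)` -/
lemma pr_eq_self (hz : z ∈ P.W) (b : Bool) : Hm.pr (P.pi z) b v = v ↔ v ∈ P.E (!b) z := by
  cases b
  · exact h.pi_eq_self hz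
  · rw [Bool.not_true, ← h.pi_eq_zero hz]; simp [Hm.pr]

lemma pr_eq_zero (hz : z ∈ P.W) (b : Bool) : Hm.pr (P.pi z) b v = 0 ↔ v ∈ P.E b z := by
  cases b
  · exact h.pi_eq_zero hz
  · rw [← h.pi_eq_self hz, eq_comm (b := v), ← sub_eq_zero (a := v)]; simp [Hm.pr]


lemma lag (hz : z ∈ P.W) (hv : v ∈ P.E i z) (hw : w ∈ P.E i z) : om v w = 0 := by
  rw [om, mem_E.1 hv, mem_E.1 hw, h.symm i z hz, real_inner_comm, sub_self]

lemma om_pi (hz : z ∈ P.W) (v w : ZZ m) : om (P.pi z v) w = om v (w - P.pi z w) := by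
  have h1 := h.lag hz (pi_mem (P := P) (z := z) v) (pi_mem w)
  have h2 := h.lag hz (h.sub_pi hz v) (h.sub_pi hz w)
  simp only [← omL_apply, map_sub, sub_apply] at h1 h2 ⊢
  linarith

/-- the graphs are their own `ω`-complements -/
lemma mem_of_om (hz : z ∈ P.W) (hv : ∀ w ∈ P.E i z, om v w = 0) : v ∈ P.E i z := by
  cases i
  · rw [← h.pi_eq_zero hz]
    exact om_nd fun w => by rw [h.om_pi hz]; exact hv _ (h.sub_pi hz w)
  · rw [← h.pi_eq_self hz, eq_comm, ← sub_eq_zero]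
    refine om_nd fun w => ?_
    have h1 := h.om_pi hz v w
    have h2 := hv _ (pi_mem (P := P) (z := z) w)
    simp only [← omL_apply, map_sub, sub_apply] at h1 h2 ⊢
    linarith

lemma cont_pi : ContinuousOn P.pi P.W := by
  have h1 : ContinuousOn (fun z => Ring.inverse (P.S true z - P.S false z)) P.W := fun z hz => by
    obtain ⟨u, hu⟩ := h.unit z hz
    exact ContinuousAt.comp_continuousWithinAt (f := fun z => P.S true z - P.S false z)
      (by rw [← hu]; exact NormedRing.inverse_continuousAt u)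
      (((h.cont true).sub (h.cont false)) z hz)
  have h2 : ContinuousOn (fun z => (ContinuousLinearMap.id ℝ (Euc m)).prod (P.S true z)) P.W :=
    (ContinuousLinearMap.prodₗᵢ ℝ).continuous.comp_continuousOn
      (continuousOn_const.prodMk (h.cont true))
  exact h2.clm_comp (h1.clm_comp (continuousOn_const.sub
    ((h.cont false).clm_comp continuousOn_const)))

lemma hasFDerivAt (hR : P.R z T fl) : HasFDerivAt T (fderiv ℝ T z) z :=
  ((h.smooth z T fl hR).differentiableAt (by simp)).hasFDerivAt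

lemma inj (hR : P.R z T fl) : Function.Injective (fderiv ℝ T z) := by
  refine (injective_iff_map_eq_zero _).2 fun v hv => om_nd fun w => ?_
  have := h.sp z T fl hR v w
  rw [hv, ← omL_apply, map_zero] at this
  cases fl <;> simpa using this.symm

/-- the differential as an equivalence -/
lemma exists_L (hR : P.R z T fl) :
    ∃ L : ZZ m ≃L[ℝ] ZZ m, (L : ZZ m →L[ℝ] ZZ m) = fderiv ℝ T z :=
  ⟨(LinearEquiv.ofInjectiveEndo (fderiv ℝ T z : ZZ m →ₗ[ℝ] ZZ m) (h.inj hR)).toContinuousLinearEquiv,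
    ContinuousLinearMap.ext fun _ => rfl⟩

lemma pr_map (hR : P.R z T fl) (v : ZZ m) :
    Hm.pr (P.pi (T z)) fl (fderiv ℝ T z v) = fderiv ℝ T z (P.pi z v) := by
  obtain ⟨hz, hz'⟩ := h.mem z T fl hR
  have h1 := h.map z T fl true hR _ (pi_mem v)
  have h2 := h.map z T fl false hR _ (h.sub_pi hz v)
  rw [Bool.true_xor, ← h.pr_eq_self hz'] at h1
  rw [Bool.false_xor, ← h.pr_eq_zero hz', map_sub, map_sub, h1, sub_eq_zero] at h2
  exact h2


/-- a germ gives a move -/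
lemma exists_mv (hR : P.R z T fl) : ∃ g ∈ P.mv, z ∈ g.U ∧ g.f = T ∧ g.s = fl := by
  classical
  obtain ⟨U, hU, hUo, hz⟩ := _root_.eventually_nhds_iff.1 (h.ev z T fl hR)
  refine ⟨⟨U, T, fun y => if hy : P.R y T fl then (h.exists_L hy).choose else
    ContinuousLinearEquiv.refl ℝ _, fl⟩, ⟨hUo, fun y hy => ⟨hU y hy, ?_⟩⟩, hz, rfl, rfl⟩
  simp only [dif_pos (hU y hy)]
  rw [(h.exists_L (hU y hy)).choose_spec]
  exact h.hasFDerivAt (hU y hy)

lemma contDiffOn {U : Set (ZZ m)} (hU : ∀ y ∈ U, P.R y T fl) : ContDiffOn ℝ ∞ T U :=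
  fun y hy => (h.smooth y T fl (hU y hy)).contDiffWithinAt


end Ok

end PD

end Crest.Agent.N221
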