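import Crest.Agent.N221.A1.PDefs

-- ▼ part N221/A1/PTay
section

/-! Row 221, step A1: Taylor polynomials (`TayS`). -/

set_option autoImplicit false

open Set Metric Finset Filter
open scoped ContDiff Nat Topology

namespace Crest.Agent.N221.PS

namespace Tay

variable {E V : Type} [NormedAddCommGroup E] [NormedSpace ℝ E] [NormedAddCommGroup V]
  [NormedSpace ℝ V] {n : ℕ}

lemma inv_fact_le (i : ℕ) : ‖(i ! : ℝ)⁻¹‖ ≤ 1 := by
  rw [Real.norm_of_nonneg (by positivity)]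
  exact inv_le_one_of_one_le₀ (by exact_mod_cast i.factorial_pos)

lemma norm_diag_le {i : ℕ} (M : E [×i]→L[ℝ] V) (x : E) : ‖M fun _ => x‖ ≤ ‖M‖ * ‖x‖ ^ i := by
  simpa using M.le_opNorm fun _ => x

lemma tay_smul (f : E → V) (t : ℝ) (x : E) : tay n f (t • x) =
    ∑ i ∈ range (n + 1), t ^ i • ((i ! : ℝ)⁻¹ • iteratedFDeriv ℝ i f 0 fun _ => x) := by
  refine sum_congr rfl fun i _ => ?_
  rw [smul_comm, (iteratedFDeriv ℝ i f 0).map_smul_univ (fun _ => t) fun _ => x]
  simp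

lemma rem [CompleteSpace V] {f : E → V} {R D : ℝ} (hf : ContDiffOn ℝ ∞ f (ball 0 R))
    (hD : ∀ x ∈ ball (0 : E) R, ‖iteratedFDeriv ℝ (n + 1) f x‖ ≤ D) {x : E} (hx : x ∈ ball (0 : E) R) :
    ‖f x - tay n f x‖ ≤ D * ‖x‖ ^ (n + 1) := by
  have hm : ∀ t ∈ Icc (0 : ℝ) 1, 0 + t • x ∈ ball (0 : E) R := fun t ht => by
    rw [mem_ball_zero_iff] at hx ⊢
    rw [zero_add, norm_smul, Real.norm_of_nonneg ht.1]
    exact (mul_le_of_le_one_left (norm_nonneg x) ht.2).trans_lt hx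
  have h := map_add_eq_sum_add_integral_iteratedFDeriv (n := n) (f := f) (x := 0) (y := x)
    fun t ht => (hf.contDiffAt (isOpen_ball.mem_nhds (hm t ht))).of_le (by exact_mod_cast le_top)
  rw [zero_add] at h
  rw [h, tay, add_sub_cancel_left, norm_smul]
  refine (mul_le_of_le_one_left (norm_nonneg _) (inv_fact_le n)).trans
    ((intervalIntegral.norm_integral_le_of_norm_le_const fun t ht => ?_).trans_eq (by simp; rfl))
  rw [uIoc_of_le zero_le_one] at ht
  rw [norm_smul, norm_pow, Real.norm_of_nonneg (sub_nonneg.2 ht.2)]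
  refine (mul_le_of_le_one_left (norm_nonneg _)
    (pow_le_one₀ (sub_nonneg.2 ht.2) (by linarith [ht.1]))).trans ((norm_diag_le _ x).trans ?_)
  gcongr
  exact hD _ (hm t ⟨ht.1.le, ht.2⟩)

lemma remez (h : RemS) (f : E → V) {r L η : ℝ} (hr : 0 < r) (hL : r ≤ L)
    (hη : ∀ x : E, ‖x‖ ≤ r → ‖tay n f x‖ ≤ η) {x : E} (hx : ‖x‖ ≤ L) :
    ‖tay n f x‖ ≤ (6 * L / r) ^ n * η := by
  have h0 : 0 < L := hr.trans_le hL
  have := h V n _ r L η hr hL (fun t ht => by
    rw [← tay_smul f t (L⁻¹ • x)]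
    refine hη _ ?_
    rw [norm_smul, norm_smul, Real.norm_of_nonneg ht.1, Real.norm_of_nonneg (inv_pos.2 h0).le]
    exact (mul_le_of_le_one_right ht.1 (by rwa [inv_mul_le_iff₀ h0, mul_one])).trans ht.2)
    L ⟨h0.le, le_rfl⟩
  rwa [← tay_smul, smul_inv_smul₀ h0.ne'] at this

lemma eq_zero [CompleteSpace V] (h : RemS) {f : E → V} {r K : ℝ} (hr : 0 < r)
    (hf : ContDiffOn ℝ ∞ f (ball 0 r)) (hK : ∀ x ∈ ball (0 : E) r, ‖f x‖ ≤ K * ‖x‖ ^ (n + 1)) (x : E) :
    tay n f x = 0 := by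
  have h1 : ContinuousAt (iteratedFDeriv ℝ (n + 1) f) 0 :=
    ((hf.contDiffAt (ball_mem_nhds 0 hr)).iteratedFDeriv_right (m := 0)
      (by exact_mod_cast le_top)).continuousAt
  obtain ⟨ε, hε, h2⟩ := Metric.mem_nhds_iff.1 ((h1.norm.eventually_lt_const
    (lt_add_one _)).and (ball_mem_nhds 0 hr))
  set D := ‖iteratedFDeriv ℝ (n + 1) f 0‖ + 1
  have h3 : ∀ᶠ l in 𝓝[>] (0 : ℝ), ‖tay n f x‖ ≤ (6 * (‖x‖ + 1)) ^ n * (|K| + D) * l := by
    filter_upwards [Ioo_mem_nhdsGT (lt_min hε one_pos)] with l hl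
    have a1 := lt_min_iff.1 hl.2
    refine (remez h f (η := (|K| + D) * l ^ (n + 1)) hl.1 (by linarith [norm_nonneg x]) (fun y hy => ?_)
      (lt_add_one _).le).trans_eq (by rw [div_pow]; field_simp [hl.1.ne']; ring)
    have a2 : y ∈ ball (0 : E) ε := mem_ball_zero_iff.2 (hy.trans_lt a1.1)
    have a3 := rem (hf.mono fun z hz => (h2 hz).2) (fun z hz => (h2 hz).1.le) a2
    have a4 := (hK y (h2 a2).2).trans (mul_le_mul_of_nonneg_right (le_abs_self K) (by positivity))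
    calc _ ≤ ‖f y‖ + ‖f y - tay n f y‖ := norm_le_norm_add_norm_sub _ _
      _ ≤ (|K| + D) * ‖y‖ ^ (n + 1) := by linarith
      _ ≤ _ := by gcongr
  have h4 : Tendsto (fun l : ℝ => (6 * (‖x‖ + 1)) ^ n * (|K| + D) * l) (𝓝[>] 0) (𝓝 _) :=
    (tendsto_id.const_mul _).mono_left nhdsWithin_le_nhds
  simpa using ge_of_tendsto h4 h3

lemma tay_sub {f g : E → V} (hf : ContDiffAt ℝ ∞ f 0) (hg : ContDiffAt ℝ ∞ g 0) (x : E) :
    tay n (f - g) x = tay n f x - tay n g x := by
  rw [tay, tay, tay, ← sum_sub_distrib]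
  refine sum_congr rfl fun i _ => ?_
  rw [iteratedFDeriv_sub_apply (hf.of_le (by exact_mod_cast le_top))
    (hg.of_le (by exact_mod_cast le_top)), ← smul_sub]
  rfl

lemma size (f : E → V) {L η : ℝ} (hL : 1 ≤ L) (hη : ∀ i ≤ n, ‖iteratedFDeriv ℝ i f 0‖ ≤ η) {x : E}
    (hx : ‖x‖ ≤ L) : ‖tay n f x‖ ≤ (n + 1) * L ^ n * η := by
  have h0 : 0 ≤ η := (norm_nonneg _).trans (hη 0 n.zero_le)
  refine (norm_sum_le _ _).trans ((sum_le_card_nsmul _ _ (η * L ^ n) fun i hi => ?_).trans_eq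
    (by simp; ring))
  have hi' := Nat.lt_succ_iff.1 (mem_range.1 hi)
  rw [norm_smul]
  refine (mul_le_of_le_one_left (norm_nonneg _) (inv_fact_le i)).trans ((norm_diag_le _ x).trans ?_)
  exact mul_le_mul (hη i hi') ((pow_le_pow_left₀ (norm_nonneg x) hx i).trans
    (pow_le_pow_right₀ hL hi')) (by positivity) h0

end Tay

open Tay in
theorem tayS (h : RemS) : TayS := fun _ _ _ _ _ _ _ _ =>
  ⟨fun _ _ _ hf hD _ hx => rem hf hD hx, fun f _ _ _ hr hL hη _ hx => remez h f hr hL hη hx,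
    fun _ _ _ _ hr hf hg hK => funext fun x => sub_eq_zero.1 ((tay_sub
      (hf.contDiffAt (ball_mem_nhds 0 hr)) (hg.contDiffAt (ball_mem_nhds 0 hr)) x).symm.trans
        (eq_zero h hr (hf.sub hg) hK x)),
    fun f _ _ hL hη _ hx => size f hL hη hx,
    fun f => ContDiff.sum fun i _ => ((iteratedFDeriv ℝ i f 0).contDiff.comp
      (contDiff_pi.2 fun _ => contDiff_id)).const_smul _⟩

end Crest.Agent.N221.PS
end

-- ▼ part N221/A1/PRem

/-!
Row 221, step A1 (helper67): the Remez inequality on an interval (`RemS`, Lagrange interpolation at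
equidistant nodes) and its version for almost polynomial curves (`RmS`).
-/

set_option autoImplicit false

open Set Metric Finset
open scoped ContDiff Nat Topology

namespace Crest.Agent.N221.PS

/-- `∏_{j ≤ n, j ≠ k} |k - j| = k! (n - k)!` -/
lemma prod_abs_sub (k m : ℕ) :
    ∏ j ∈ (range (k + m + 1)).erase k, |(k : ℝ) - j| = (k ! : ℝ) * (m ! : ℝ) := by
  induction m with
  | zero =>
    rw [add_zero, Finset.range_add_one, Finset.erase_insert Finset.notMem_range_self,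
      ← Finset.prod_range_reflect, Nat.factorial_zero, Nat.cast_one, mul_one,
      ← Finset.prod_range_add_one_eq_factorial, Nat.cast_prod]
    refine Finset.prod_congr rfl fun j hj => ?_
    have hj' : j < k := Finset.mem_range.1 hj
    obtain ⟨r, rfl⟩ : ∃ r, k = j + 1 + r := ⟨k - (j + 1), by omega⟩
    rw [show j + 1 + r - 1 - j = r by omega]
    push_cast
    rw [abs_of_nonneg (by linarith [Nat.cast_nonneg (α := ℝ) j])]
    ring
  | succ m ih =>
    rw [← add_assoc, Finset.range_add_one, Finset.erase_insert_of_ne (by omega),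
      Finset.prod_insert (by simp), ih, Nat.factorial_succ]
    push_cast
    rw [abs_of_nonpos (by linarith [Nat.cast_nonneg (α := ℝ) m])]
    ring

/-- `∑_k n^n / (k! (n - k)!) ≤ 6^n` -/
lemma sum_inv_fact_le (n : ℕ) :
    ∑ k ∈ range (n + 1), (n : ℝ) ^ n / ((k ! : ℝ) * ((n - k)! : ℝ)) ≤ 6 ^ n := by
  have hn : (0 : ℝ) < (n ! : ℝ) := by exact_mod_cast Nat.factorial_pos n
  have h1 : ∀ k ∈ range (n + 1), (n : ℝ) ^ n / ((k ! : ℝ) * ((n - k)! : ℝ)) =
      (n : ℝ) ^ n / (n ! : ℝ) * (n.choose k : ℝ) := by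
    intro k hk
    have hk' : k ≤ n := Nat.lt_succ_iff.1 (Finset.mem_range.1 hk)
    have h2 : (n.choose k : ℝ) * (k ! : ℝ) * ((n - k)! : ℝ) = (n ! : ℝ) := by
      exact_mod_cast Nat.choose_mul_factorial_mul_factorial hk'
    have h3 : (0 : ℝ) < (k ! : ℝ) := by exact_mod_cast Nat.factorial_pos k
    have h4 : (0 : ℝ) < ((n - k)! : ℝ) := by exact_mod_cast Nat.factorial_pos (n - k)
    have h5 : (0 : ℝ) < (n.choose k : ℝ) := by exact_mod_cast Nat.choose_pos hk'
    rw [← h2]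
    field_simp
  rw [Finset.sum_congr rfl h1, ← Finset.mul_sum, ← Nat.cast_sum, Nat.sum_range_choose]
  have h6 : (n : ℝ) ^ n / (n ! : ℝ) ≤ 3 ^ n := by
    refine (Real.pow_div_factorial_le_exp _ (Nat.cast_nonneg n) n).trans ?_
    rw [← Real.exp_one_pow]
    exact pow_le_pow_left₀ (Real.exp_pos 1).le (by linarith [Real.exp_one_lt_d9]) n
  push_cast
  calc (n : ℝ) ^ n / (n ! : ℝ) * 2 ^ n ≤ 3 ^ n * 2 ^ n := by gcongr
    _ = 6 ^ n := by rw [← mul_pow]; norm_num

theorem remS : RemS := by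
  intro V _ _ n c l L η hl hL h t ht
  classical
  have hη : 0 ≤ η := (norm_nonneg _).trans (h 0 ⟨le_rfl, hl.le⟩)
  rcases Nat.eq_zero_or_pos n with rfl | hn
  · simpa using h 0 ⟨le_rfl, hl.le⟩
  have hn' : (0 : ℝ) < n := by exact_mod_cast hn
  set v : ℕ → ℝ := fun k => k * (l / n) with hv
  have hd : 0 < l / n := by positivity
  have hinj : Set.InjOn v (range (n + 1) : Finset ℕ) := fun i _ j _ e => by
    exact_mod_cast mul_right_cancel₀ hd.ne' e
  have hvm : ∀ k ∈ range (n + 1), v k ∈ Icc 0 l := by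
    intro k hk
    have hk' : (k : ℝ) ≤ n := by exact_mod_cast Nat.lt_succ_iff.1 (Finset.mem_range.1 hk)
    refine ⟨by positivity, ?_⟩
    calc (k : ℝ) * (l / n) ≤ n * (l / n) := by gcongr
      _ = l := by field_simp
  set b : ℕ → ℝ := fun k => (Lagrange.basis (range (n + 1)) v k).eval t with hb
  have hpow : ∀ i ∈ range (n + 1), t ^ i = ∑ k ∈ range (n + 1), b k * v k ^ i := by
    intro i hi
    have h1 := Lagrange.eq_interpolate (f := (Polynomial.X : Polynomial ℝ) ^ i) hinj (by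
      rw [Polynomial.degree_X_pow, Finset.card_range]
      exact_mod_cast Finset.mem_range.1 hi)
    have h2 := congrArg (Polynomial.eval t) h1
    rw [Lagrange.interpolate_apply, Polynomial.eval_finsetSum] at h2
    simp only [Polynomial.eval_pow, Polynomial.eval_X, Polynomial.eval_mul,
      Polynomial.eval_C] at h2
    rw [h2]
    exact Finset.sum_congr rfl fun k _ => mul_comm _ _
  have hsum : ∑ i ∈ range (n + 1), t ^ i • c i =
      ∑ k ∈ range (n + 1), b k • ∑ i ∈ range (n + 1), v k ^ i • c i := by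
    simp only [Finset.smul_sum, smul_smul]
    rw [Finset.sum_comm]
    exact Finset.sum_congr rfl fun i hi => by rw [hpow i hi, Finset.sum_smul]
  have hbk : ∀ k ∈ range (n + 1),
      |b k| ≤ (L / l) ^ n * ((n : ℝ) ^ n / ((k ! : ℝ) * ((n - k)! : ℝ))) := by
    intro k hk
    have hk' : k ≤ n := Nat.lt_succ_iff.1 (Finset.mem_range.1 hk)
    have hcard : ((range (n + 1)).erase k).card = n := by
      rw [Finset.card_erase_of_mem hk, Finset.card_range, Nat.add_sub_cancel]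
    have hp := prod_abs_sub k (n - k)
    rw [Nat.add_sub_cancel' hk'] at hp
    have h1 : |b k| = ∏ j ∈ (range (n + 1)).erase k, |(v k - v j)⁻¹ * (t - v j)| := by
      simp only [hb, Lagrange.basis, Lagrange.basisDivisor, Polynomial.eval_prod,
        Polynomial.eval_mul, Polynomial.eval_C, Polynomial.eval_sub, Polynomial.eval_X,
        Finset.abs_prod]
    have h2 : ∀ j ∈ (range (n + 1)).erase k,
        |(v k - v j)⁻¹ * (t - v j)| ≤ L / l * n * |(k : ℝ) - j|⁻¹ := by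
      intro j hj
      have hj' := hvm j (Finset.mem_of_mem_erase hj)
      have h3 : |t - v j| ≤ L := abs_le.2 ⟨by linarith [ht.1, hj'.2], by linarith [ht.2, hj'.1]⟩
      have h4 : |(v k - v j)⁻¹| = n / l * |(k : ℝ) - j|⁻¹ := by
        rw [hv]
        simp only
        rw [← sub_mul, abs_inv, abs_mul, abs_of_pos hd, mul_inv, inv_div, mul_comm]
      rw [abs_mul, h4]
      calc n / l * |(k : ℝ) - j|⁻¹ * |t - v j| ≤ n / l * |(k : ℝ) - j|⁻¹ * L := by gcongr
        _ = L / l * n * |(k : ℝ) - j|⁻¹ := by ring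
    rw [h1]
    refine (Finset.prod_le_prod (fun _ _ => abs_nonneg _) h2).trans (le_of_eq ?_)
    rw [Finset.prod_mul_distrib, Finset.prod_const, hcard, Finset.prod_inv_distrib, hp, mul_pow]
    ring
  have hL0 : 0 ≤ L / l := div_nonneg (hl.le.trans hL) hl.le
  rw [hsum]
  calc ‖∑ k ∈ range (n + 1), b k • ∑ i ∈ range (n + 1), v k ^ i • c i‖
      ≤ ∑ k ∈ range (n + 1), (L / l) ^ n * ((n : ℝ) ^ n / ((k ! : ℝ) * ((n - k)! : ℝ))) * η := by
        refine (norm_sum_le _ _).trans (Finset.sum_le_sum fun k hk => ?_)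
        rw [norm_smul, Real.norm_eq_abs]
        exact mul_le_mul (hbk k hk) (h _ (hvm k hk)) (norm_nonneg _) (by positivity)
    _ ≤ (L / l) ^ n * 6 ^ n * η := by
        rw [← Finset.sum_mul, ← Finset.mul_sum]
        gcongr
        exact sum_inv_fact_le n
    _ = (6 * L / l) ^ n * η := by rw [← mul_pow, mul_comm (L / l), mul_div_assoc]

theorem rmS : RmS := by
  intro V _ _ _ n f l η ε hl hl1 hf hη hε t ht
  have hε0 : 0 ≤ ε := (norm_nonneg _).trans (hε 0 ⟨le_rfl, zero_le_one⟩)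
  have hat : ∀ s ∈ Icc (0 : ℝ) 1, ContDiffAt ℝ (n + 1 : ℕ) f s := fun s hs =>
    (hf s hs).of_le (by exact_mod_cast le_top)
  have hon : ContDiffOn ℝ (n + 1) f (Icc 0 1) := fun s hs => by
    exact_mod_cast (hat s hs).contDiffWithinAt
  have hbd : ∀ s ∈ Icc (0 : ℝ) 1, ‖iteratedDerivWithin (n + 1) f (Icc 0 1) s‖ ≤ ε := by
    intro s hs
    rw [iteratedDerivWithin_eq_iteratedDeriv (uniqueDiffOn_Icc zero_lt_one) (hat s hs) hs]
    exact hε s hs
  set c : ℕ → V := fun k => (k ! : ℝ)⁻¹ • iteratedDerivWithin k f (Icc 0 1) 0 with hc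
  have hrem : ∀ s ∈ Icc (0 : ℝ) 1, ‖f s - ∑ i ∈ range (n + 1), s ^ i • c i‖ ≤ ε := by
    intro s hs
    have h1 := taylor_mean_remainder_bound zero_le_one hon hs hbd
    have h2 : taylorWithinEval f n (Icc 0 1) 0 s = ∑ i ∈ range (n + 1), s ^ i • c i := by
      rw [taylor_within_apply]
      exact Finset.sum_congr rfl fun i _ => by rw [hc, smul_smul, sub_zero, mul_comm]
    rw [h2, sub_zero] at h1
    refine h1.trans ?_
    have h3 : (1 : ℝ) ≤ (n ! : ℝ) := by exact_mod_cast Nat.factorial_pos n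
    refine (div_le_self (mul_nonneg hε0 (pow_nonneg hs.1 _)) h3).trans ?_
    exact mul_le_of_le_one_right hε0 (pow_le_one₀ hs.1 hs.2)
  have h4 := remS V n c l 1 (η + ε) hl hl1 (fun s hs => by
    have h5 := norm_sub_norm_le (∑ i ∈ range (n + 1), s ^ i • c i) (f s)
    rw [norm_sub_rev] at h5
    linarith [hrem s ⟨hs.1, hs.2.trans hl1⟩, hη s hs]) t ht
  rw [mul_one] at h4
  have h6 := norm_sub_norm_le (f t) (∑ i ∈ range (n + 1), t ^ i • c i)
  linarith [hrem t ht]

end Crest.Agent.N221.PS
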