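import Crest.Agent.N221.A1.PDefs
import Crest.Agent.N221.A1.PRem_Mg
import Crest.Agent.N221.A1.PNe_Mg

-- ▼ part N221/A1/PNum
section

/-! Row 221, A1: the numerical core `NumS` of subexponential propagation. -/

set_option autoImplicit false

open Finset

namespace Crest.Agent.N221.PS

theorem abel_ex (z a : ℕ → ℝ) (L : ℕ) (hL : 0 < L) (h : ∀ l < L, z (l + 1) + a l ≤ z l)
    (h0 : 0 ≤ z L) : ∃ l < L, a l ≤ z 0 / L := by
  by_contra hc
  push Not at hc
  have key : ∀ l ≤ L, 0 < l → z l + l * (z 0 / L) < z 0 := by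
    intro l
    induction l with
    | zero => intro _ h; exact absurd h (lt_irrefl _)
    | succ l ih =>
      intro hl _
      have h1 := h l (by omega)
      have h2 := hc l (by omega)
      rcases Nat.eq_zero_or_pos l with h3 | h3
      · subst h3; push_cast; simp only [zero_add, one_mul] at h1 ⊢; linarith
      · have := ih (by omega) h3
        push_cast; linarith
  have h1 := key L le_rfl hL
  have h2 : (L : ℝ) * (z 0 / L) = z 0 := by
    have : (L : ℝ) ≠ 0 := by positivity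
    field_simp
  linarith

theorem chain_le {b : ℝ} (hb : 1 ≤ b) {T : ℕ} {M : ℕ → ℝ} (h : ∀ j < T, M j ≤ b * M (j + 1))
    (j i : ℕ) (hj : j + i ≤ T) : M j ≤ b ^ i * M (j + i) := by
  induction i with
  | zero => simp
  | succ i ih =>
    have h1 := ih (by omega)
    have h2 := h (j + i) (by omega)
    have h3 : 0 ≤ b ^ i := by positivity
    calc M j ≤ b ^ i * M (j + i) := h1
      _ ≤ b ^ i * (b * M (j + i + 1)) := mul_le_mul_of_nonneg_left h2 h3
      _ = b ^ (i + 1) * M (j + (i + 1)) := by rw [pow_succ]; ring_nf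

set_option maxHeartbeats 800000 in
/-- one slope -/
theorem slope (b B R α t K d d0 : ℝ) (N : ℕ) (hb : 1 ≤ b) (hB : 1 ≤ B) (hR : 0 < R)
    (ht : 0 < t) (h4 : 4 * b * t ≤ 1) (hα : t ≤ Real.exp (-(2 * α))) (hK : 0 ≤ K) (hd : 0 ≤ d)
    (hd0 : 0 ≤ d0) : ∃ C : ℝ, 0 ≤ C ∧ ∀ (T : ℕ) (η : ℝ) (M ρ P : ℕ → ℝ) (j : ℕ), 0 ≤ η → j ≤ T →
    0 ≤ M j → (∀ k ≤ T, M k * t ^ k ≤ M j * t ^ j) →
    (∀ j < T, M j ≤ b * M (j + 1)) → M T ≤ d0 * Real.exp (α * T) →
    ρ T ≤ d * Real.exp (α * T) →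
    (∀ j < T, ρ j ≤ 2 * b * t ^ 2 * ρ (j + 1) + K * M (j + 1)) →
    (∀ j ≤ T, P j ≤ K * B ^ (N * j) * η) →
    (∀ j i, j + i ≤ T → M j ≤ b ^ i * (P (j + i) + ρ (j + i) * ((t ^ 2) ^ i * R))) →
    M 0 ≤ C * (B ^ (N * j) * η + Real.exp (-(α * T))) := by
  have hbt : b * t ≤ 1 / 4 := by linarith
  have ht1 : t ≤ 1 := by nlinarith
  obtain ⟨i, hi⟩ : ∃ i : ℕ, (1 / 4 : ℝ) ^ i * (R * (2 * K / t)) ≤ 1 / 2 := by
    have hp : 0 < R * (2 * K / t) + 1 := by positivity
    obtain ⟨i, hi⟩ := exists_pow_lt_of_lt_one (x := 1 / 2 / (R * (2 * K / t) + 1))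
      (y := (1 / 4 : ℝ)) (by positivity) (by norm_num)
    refine ⟨i, ?_⟩
    rw [lt_div_iff₀ hp] at hi
    have : 0 < (1 / 4 : ℝ) ^ i := by positivity
    nlinarith
  refine ⟨2 * b ^ i * K * B ^ (N * i) + 2 * R * d + (b / t) ^ i * d0, by positivity, ?_⟩
  intro T η M ρ P j hη hj hM hmax hch hT hρT hρ hP h5
  have hE : 0 < Real.exp (α * T) := Real.exp_pos _
  have hE' : 0 < Real.exp (-(α * T)) := Real.exp_pos _
  have htT : Real.exp (α * T) * t ^ T ≤ Real.exp (-(α * T)) := by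
    have h1 : t ^ T ≤ Real.exp (-(2 * α)) ^ T := pow_le_pow_left₀ ht.le hα T
    rw [← Real.exp_nat_mul] at h1
    calc Real.exp (α * T) * t ^ T ≤ Real.exp (α * T) * Real.exp (T * -(2 * α)) :=
          mul_le_mul_of_nonneg_left h1 hE.le
      _ = Real.exp (-(α * T)) := by rw [← Real.exp_add]; ring_nf
  have hM0 : M 0 ≤ M j * t ^ j := by simpa using hmax 0 (Nat.zero_le _)
  have hBj : 0 ≤ B ^ (N * j) * η := by positivity
  obtain ⟨I, rfl⟩ := Nat.exists_eq_add_of_le hj
  have c1 : 0 ≤ 2 * b ^ i * K * B ^ (N * i) := by positivity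
  have c2 : 0 ≤ 2 * R * d := by positivity
  have c3 : 0 ≤ (b / t) ^ i * d0 := by positivity
  have htj : 0 < t ^ j := by positivity
  by_cases hI : i ≤ I
  · set D := d * Real.exp (α * (j + I : ℕ)) * t ^ I with hD
    have hD0 : 0 ≤ D := by positivity
    set X := 2 * K / t * M j + D with hX
    have hX0 : 0 ≤ X := by positivity
    have hσ : ∀ k m, m + k = I → ρ (j + m) * t ^ m ≤ X := by
      intro k
      induction k with
      | zero =>
        intro m hm
        obtain rfl : m = I := by omega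
        have : ρ (j + m) * t ^ m ≤ D := mul_le_mul_of_nonneg_right hρT (by positivity)
        have h2 : 0 ≤ 2 * K / t * M j := by positivity
        linarith
      | succ k ih =>
        intro m hm
        have h1 := ih (m + 1) (by omega)
        have h2 := hρ (j + m) (by omega)
        have h3 := hmax (j + (m + 1)) (by omega)
        have h3' : M (j + m + 1) * t ^ (m + 1) ≤ M j := by
          have : M (j + (m + 1)) * t ^ (m + 1) * t ^ j ≤ M j * t ^ j := by
            rw [mul_assoc, ← pow_add, add_comm (m + 1) j]; exact h3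
          exact le_of_mul_le_mul_right this htj
        have htm : 0 < t ^ m := by positivity
        have h6 : K * M (j + m + 1) * t ^ m ≤ K / t * M j := by
          have : K * M (j + m + 1) * t ^ m = K / t * (M (j + m + 1) * t ^ (m + 1)) := by
            rw [pow_succ]; field_simp
          rw [this]; exact mul_le_mul_of_nonneg_left h3' (by positivity)
        have h7 : 2 * b * t ^ 2 * ρ (j + m + 1) * t ^ m ≤ X / 2 := by
          have e : 2 * b * t ^ 2 * ρ (j + m + 1) * t ^ m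
              = 2 * (b * t) * (ρ (j + (m + 1)) * t ^ (m + 1)) := by
            rw [pow_succ t m, ← add_assoc]; ring
          rw [e]
          have : 2 * (b * t) * (ρ (j + (m + 1)) * t ^ (m + 1)) ≤ 2 * (b * t) * X :=
            mul_le_mul_of_nonneg_left h1 (by positivity)
          nlinarith
        have h8 : ρ (j + m) * t ^ m ≤
            (2 * b * t ^ 2 * ρ (j + m + 1) + K * M (j + m + 1)) * t ^ m :=
          mul_le_mul_of_nonneg_right h2 htm.le
        have h9 : X / 2 + K / t * M j ≤ X := by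
          have : 2 * K / t * M j = 2 * (K / t * M j) := by ring
          rw [hX, this]; linarith
        linarith
    have h1 := hσ (I - i) i (by omega)
    have h2 := h5 j i (by omega)
    have h3 := hP (j + i) (by omega)
    have h4i : (b * t) ^ i ≤ (1 / 4) ^ i := pow_le_pow_left₀ (by positivity) hbt i
    have h41 : (1 / 4 : ℝ) ^ i ≤ 1 := pow_le_one₀ (by norm_num) (by norm_num)
    have h6 : b ^ i * (ρ (j + i) * ((t ^ 2) ^ i * R)) ≤ M j / 2 + R * D := by
      have e : b ^ i * (ρ (j + i) * ((t ^ 2) ^ i * R)) = (b * t) ^ i * R * (ρ (j + i) * t ^ i) := by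
        rw [mul_pow, ← pow_mul, two_mul, pow_add]; ring
      rw [e]
      have a1 : (b * t) ^ i * R * (ρ (j + i) * t ^ i) ≤ (b * t) ^ i * R * X :=
        mul_le_mul_of_nonneg_left h1 (by positivity)
      have a2 : (b * t) ^ i * R * X ≤ (1 / 4) ^ i * R * X := by gcongr
      have a3 : (1 / 4 : ℝ) ^ i * R * X
          = (1 / 4) ^ i * (R * (2 * K / t)) * M j + (1 / 4) ^ i * (R * D) := by rw [hX]; ring
      have a4 : (1 / 4 : ℝ) ^ i * (R * (2 * K / t)) * M j ≤ 1 / 2 * M j :=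
        mul_le_mul_of_nonneg_right hi hM
      have a5 : (1 / 4 : ℝ) ^ i * (R * D) ≤ 1 * (R * D) :=
        mul_le_mul_of_nonneg_right h41 (by positivity)
      linarith
    have h7 : b ^ i * P (j + i) ≤ b ^ i * K * B ^ (N * i) * (B ^ (N * j) * η) := by
      have : b ^ i * P (j + i) ≤ b ^ i * (K * B ^ (N * (j + i)) * η) :=
        mul_le_mul_of_nonneg_left h3 (by positivity)
      rw [mul_add, pow_add] at this
      linarith
    have h8 : M j ≤ 2 * b ^ i * K * B ^ (N * i) * (B ^ (N * j) * η) + 2 * R * D := by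
      rw [mul_add] at h2; linarith
    have h9 : D * t ^ j ≤ d * Real.exp (-(α * (j + I : ℕ))) := by
      have : D * t ^ j = d * (Real.exp (α * (j + I : ℕ)) * t ^ (j + I)) := by
        rw [hD, pow_add]; ring
      rw [this]; exact mul_le_mul_of_nonneg_left htT hd
    have htj1 : t ^ j ≤ 1 := pow_le_one₀ ht.le ht1
    have h10 : M j * t ^ j ≤ (2 * b ^ i * K * B ^ (N * i) * (B ^ (N * j) * η) + 2 * R * D) * t ^ j :=
      mul_le_mul_of_nonneg_right h8 htj.le
    have h11 : 2 * b ^ i * K * B ^ (N * i) * (B ^ (N * j) * η) * t ^ j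
        ≤ 2 * b ^ i * K * B ^ (N * i) * (B ^ (N * j) * η) :=
      mul_le_of_le_one_right (by positivity) htj1
    have h12 : 2 * R * D * t ^ j ≤ 2 * R * d * Real.exp (-(α * (j + I : ℕ))) := by
      have := mul_le_mul_of_nonneg_left h9 (show 0 ≤ 2 * R by positivity)
      linarith
    have p1 := mul_nonneg c1 hE'.le
    have p2 := mul_nonneg c2 hBj
    have p3 := mul_nonneg c3 hBj
    have p4 := mul_nonneg c3 hE'.le
    linarith
  · push Not at hI
    have h1 := chain_le hb hch j I le_rfl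
    have h2 : M j ≤ b ^ I * (d0 * Real.exp (α * (j + I : ℕ))) :=
      h1.trans (mul_le_mul_of_nonneg_left hT (by positivity))
    have h3 : M j * t ^ j ≤ (b / t) ^ I * d0 * (Real.exp (α * (j + I : ℕ)) * t ^ (j + I)) := by
      have : (b / t) ^ I * d0 * (Real.exp (α * (j + I : ℕ)) * t ^ (j + I))
          = b ^ I * (d0 * Real.exp (α * (j + I : ℕ))) * t ^ j := by
        rw [div_pow, pow_add]; field_simp
      rw [this]; exact mul_le_mul_of_nonneg_right h2 htj.le
    have h4 : (b / t) ^ I ≤ (b / t) ^ i :=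
      pow_le_pow_right₀ (by rw [le_div_iff₀ ht]; linarith) hI.le
    have h5 : (b / t) ^ I * d0 * (Real.exp (α * (j + I : ℕ)) * t ^ (j + I))
        ≤ (b / t) ^ i * d0 * Real.exp (-(α * (j + I : ℕ))) := by gcongr
    have p1 := mul_nonneg c1 hE'.le
    have p2 := mul_nonneg c2 hBj
    have p3 := mul_nonneg c3 hBj
    have p4 := mul_nonneg c1 hBj
    have p5 := mul_nonneg c2 hE'.le
    linarith

set_option maxHeartbeats 1600000 in
theorem numS : NumS := by
  intro q b B R α δ d K hq hq1 hb hB hR hα hδ hK hd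
  set s := Real.sqrt q with hs
  have hs0 : 0 < s := Real.sqrt_pos.2 hq
  have hs1 : s < 1 := by rw [hs, Real.sqrt_lt' one_pos]; simpa using hq1
  have hss : s ^ 2 = q := Real.sq_sqrt hq.le
  obtain ⟨N0, hN0⟩ := exists_pow_lt_of_lt_one
    (x := min (1 / (4 * b)) (Real.exp (-(2 * α)))) (y := s) (by positivity) hs1
  set lam := -Real.log s with hlam
  have hl0 : 0 < lam := by have := Real.log_neg hs0 hs1; linarith
  set u := Real.log B with hu
  have hu0 : 0 ≤ u := Real.log_nonneg hB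
  have hlb : 0 ≤ Real.log b := Real.log_nonneg hb
  obtain ⟨L, hL⟩ := exists_nat_gt (2 * u * (Real.log b + 2 * α) / (lam * δ))
  have hL0 : 0 < L := by
    have : (0 : ℝ) < L := lt_of_le_of_lt (by positivity) hL
    exact_mod_cast this
  have hLr : (1 : ℝ) ≤ L := by exact_mod_cast hL0
  have hsl : ∀ n : ℕ, ∃ C : ℝ, 0 ≤ C ∧ (N0 ≤ n + 1 → ∀ (T : ℕ) (η : ℝ) (M ρ P : ℕ → ℝ) (j : ℕ),
      0 ≤ η → j ≤ T → 0 ≤ M j → (∀ k ≤ T, M k * (s ^ (n + 1)) ^ k ≤ M j * (s ^ (n + 1)) ^ j) →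
      (∀ j < T, M j ≤ b * M (j + 1)) → M T ≤ d 0 * Real.exp (α * T) →
      ρ T ≤ d (n + 1) * Real.exp (α * T) →
      (∀ j < T, ρ j ≤ 2 * b * (s ^ (n + 1)) ^ 2 * ρ (j + 1) + K n * M (j + 1)) →
      (∀ j ≤ T, P j ≤ K n * B ^ ((n + 1) * j) * η) →
      (∀ j i, j + i ≤ T →
        M j ≤ b ^ i * (P (j + i) + ρ (j + i) * (((s ^ (n + 1)) ^ 2) ^ i * R ^ (n + 1)))) →
      M 0 ≤ C * (B ^ ((n + 1) * j) * η + Real.exp (-(α * T)))) := by
    intro n
    by_cases hn : N0 ≤ n + 1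
    · have h1 : s ^ (n + 1) ≤ s ^ N0 := pow_le_pow_of_le_one hs0.le hs1.le hn
      have h2 : s ^ (n + 1) ≤ 1 / (4 * b) := h1.trans (hN0.le.trans (min_le_left _ _))
      have h3 : s ^ (n + 1) ≤ Real.exp (-(2 * α)) := h1.trans (hN0.le.trans (min_le_right _ _))
      rw [le_div_iff₀ (by positivity)] at h2
      obtain ⟨C, hC, h⟩ := slope b B (R ^ (n + 1)) α (s ^ (n + 1)) (K n) (d (n + 1)) (d 0) (n + 1)
        hb hB (by positivity) (by positivity) (by linarith) h3 (hK n) (hd _) (hd 0)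
      exact ⟨C, hC, fun _ => h⟩
    · exact ⟨0, le_rfl, fun h => absurd h hn⟩
  choose Cn hCn hsl using hsl
  set n0 := 2 ^ L * (N0 + 1) with hn0
  set C1 := Real.exp (2 * u * d 0 / lam) with hC1
  have hC11 : 1 ≤ C1 := Real.one_le_exp (by have := hd 0; positivity)
  have hS : 0 ≤ ∑ n ∈ range (n0 + 1), Cn n := sum_nonneg fun n _ => hCn n
  refine ⟨n0, 1 + C1 * ∑ n ∈ range (n0 + 1), Cn n, by positivity, ?_⟩
  intro T η M ρ P hη hch hT hρT hρ hP h5
  have hE' : 0 < Real.exp (-(α * T)) := Real.exp_pos _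
  have hδT : 1 ≤ Real.exp (δ * T) := Real.one_le_exp (by positivity)
  have hCS : 0 ≤ C1 * ∑ n ∈ range (n0 + 1), Cn n := by positivity
  by_cases hM0 : M 0 ≤ Real.exp (-(α * T))
  · have h1 : 1 ≤ (1 + C1 * ∑ n ∈ range (n0 + 1), Cn n) * Real.exp (δ * T) := by nlinarith
    nlinarith
  push Not at hM0
  have hM00 : 0 < M 0 := hE'.trans hM0
  have hpos : ∀ j ≤ T, 0 < M j := by
    intro j hj
    have h1 := chain_le hb hch 0 j (by omega)
    rw [zero_add] at h1
    have h2 : 0 < b ^ j := by positivity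
    by_contra hc
    push Not at hc
    nlinarith
  have hex : ∀ N : ℕ, ∃ j ≤ T, ∀ k ≤ T, M k * (s ^ N) ^ k ≤ M j * (s ^ N) ^ j := by
    intro N
    obtain ⟨j, hj, h⟩ := exists_max_image (range (T + 1)) (fun k => M k * (s ^ N) ^ k)
      ⟨0, by simp⟩
    exact ⟨j, by simpa [Nat.lt_succ_iff] using hj, fun k hk => h k (by simpa [Nat.lt_succ_iff])⟩
  choose J hJ hJm using hex
  set Nl : ℕ → ℕ := fun l => 2 ^ l * (N0 + 1) with hNl
  have hlog : ∀ (N k : ℕ), k ≤ T →
      Real.log (M k * (s ^ N) ^ k) = Real.log (M k) - lam * (N * k) := by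
    intro N k hk
    rw [Real.log_mul (hpos k hk).ne' (by positivity), Real.log_pow, Real.log_pow, hlam]; ring
  have hcmp : ∀ (N k : ℕ), k ≤ T → Real.log (M k) - lam * (N * k)
      ≤ Real.log (M (J N)) - lam * (N * J N) := by
    intro N k hk
    rw [← hlog N k hk, ← hlog N _ (hJ N)]
    exact Real.log_le_log (mul_pos (hpos k hk) (by positivity)) (hJm N k hk)
  obtain ⟨l, hl, hal⟩ := abel_ex
    (fun l => Real.log (M (J (Nl l))) - lam * (Nl l * J (Nl l)) - Real.log (M 0))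
    (fun l => lam / 2 * (Nl (l + 1) * J (Nl (l + 1)))) L hL0 (by
      intro l _
      have h1 := hcmp (Nl l) (J (Nl (l + 1))) (hJ _)
      have h2 : (Nl (l + 1) : ℝ) = 2 * Nl l := by simp only [hNl]; push_cast; ring
      simp only [h2]
      nlinarith) (by
      have h1 := hcmp (Nl L) 0 (Nat.zero_le _)
      simp only [Nat.cast_zero, mul_zero, sub_zero] at h1
      linarith)
  have hz : Real.log (M (J (Nl 0))) - lam * (Nl 0 * J (Nl 0)) - Real.log (M 0)
      ≤ (Real.log b + 2 * α) * T + d 0 := by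
    set j := J (Nl 0)
    have hj : j ≤ T := hJ _
    have h1 := chain_le hb hch j (T - j) (by omega)
    rw [show j + (T - j) = T by omega] at h1
    have h2 : b ^ (T - j) ≤ b ^ T := pow_le_pow_right₀ hb (by omega)
    have h3 : d 0 ≤ Real.exp (d 0) := by have := Real.add_one_le_exp (d 0); linarith
    have hMT := hpos T le_rfl
    have h4 : M j ≤ b ^ T * (Real.exp (d 0) * Real.exp (α * T)) := by
      calc M j ≤ b ^ (T - j) * M T := h1
        _ ≤ b ^ T * (Real.exp (d 0) * Real.exp (α * T)) := by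
          gcongr
          exact hT.trans (mul_le_mul_of_nonneg_right h3 (Real.exp_pos _).le)
    have h6 := Real.log_le_log (hpos j hj) h4
    rw [Real.log_mul (by positivity) (by positivity), Real.log_pow, ← Real.exp_add,
      Real.log_exp] at h6
    have h7 := Real.log_le_log hE' hM0.le
    rw [Real.log_exp] at h7
    have h8 : 0 ≤ lam * ((Nl 0 : ℝ) * j) := by positivity
    nlinarith
  obtain ⟨n, hn⟩ : ∃ n, Nl (l + 1) = n + 1 := ⟨Nl (l + 1) - 1, by
    have : 0 < Nl (l + 1) := by simp only [hNl]; positivity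
    omega⟩
  have hnn : n + 1 ≤ n0 := by
    rw [← hn, hn0]
    exact Nat.mul_le_mul_right _ (Nat.pow_le_pow_right (by norm_num) hl)
  have hN0n : N0 ≤ n + 1 := by
    rw [← hn]
    have : 1 ≤ 2 ^ (l + 1) := Nat.one_le_two_pow
    simp only [hNl]; nlinarith
  rw [hn] at hal
  set j := J (n + 1) with hj
  have hq' : (s ^ (n + 1)) ^ 2 = q ^ (n + 1) := by rw [← hss, ← pow_mul, ← pow_mul, mul_comm]
  have main := hsl n hN0n T η M (ρ n) (P n) j hη (hJ _) (hpos _ (hJ _)).le (hJm _) hch hT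
    (hρT n (by omega)) (by rw [hq']; exact hρ n (by omega)) (hP n (by omega)) (by
      intro j i h
      have := h5 n (by omega) j i h
      rw [hq', ← pow_mul, mul_comm (n + 1) i, pow_mul, ← mul_pow]; exact this)
  have hBj : B ^ ((n + 1) * j) ≤ C1 * Real.exp (δ * T) := by
    have e : B ^ ((n + 1) * j) = Real.exp (u * ((n + 1 : ℕ) * j)) := by
      rw [hu, mul_comm (Real.log B), ← Nat.cast_mul, Real.exp_nat_mul, Real.exp_log (by linarith)]
    rw [e, hC1, ← Real.exp_add]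
    apply Real.exp_le_exp.2
    set m : ℝ := (n + 1 : ℕ) * j with hm
    have hm0 : 0 ≤ m := by positivity
    have h1 : lam / 2 * m * L ≤ (Real.log b + 2 * α) * T + d 0 := by
      rw [le_div_iff₀ (by positivity)] at hal; exact hal.trans hz
    rw [div_lt_iff₀ (by positivity)] at hL
    have hT0 : (0 : ℝ) ≤ T := by positivity
    have h2 : lam * L * (u * m) ≤ lam * L * (2 * u * d 0 / lam + δ * T) := by
      have a1 : lam * L * (u * m) = 2 * u * (lam / 2 * m * L) := by ring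
      have a2 : 2 * u * (lam / 2 * m * L) ≤ 2 * u * ((Real.log b + 2 * α) * T + d 0) :=
        mul_le_mul_of_nonneg_left h1 (by positivity)
      have a3 : lam * L * (2 * u * d 0 / lam + δ * T) = L * (2 * u * d 0) + L * (lam * δ) * T := by
        field_simp
      have a4 : 2 * u * (Real.log b + 2 * α) * T ≤ L * (lam * δ) * T :=
        mul_le_mul_of_nonneg_right hL.le hT0
      have a5 : 1 * (2 * u * d 0) ≤ L * (2 * u * d 0) :=
        mul_le_mul_of_nonneg_right hLr (by have := hd 0; positivity)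
      linarith
    exact le_of_mul_le_mul_left h2 (by positivity)
  have hCle : Cn n ≤ ∑ n ∈ range (n0 + 1), Cn n :=
    single_le_sum (f := Cn) (fun n _ => hCn n) (mem_range.2 (by omega))
  have h1 : B ^ ((n + 1) * j) * η + Real.exp (-(α * T))
      ≤ C1 * Real.exp (δ * T) * (η + Real.exp (-(α * T))) := by
    have a1 : B ^ ((n + 1) * j) * η ≤ C1 * Real.exp (δ * T) * η := mul_le_mul_of_nonneg_right hBj hη
    have a2 : 1 ≤ C1 * Real.exp (δ * T) := by nlinarith
    nlinarith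
  have h2 : 0 ≤ C1 * Real.exp (δ * T) * (η + Real.exp (-(α * T))) := by positivity
  calc M 0 ≤ Cn n * (B ^ ((n + 1) * j) * η + Real.exp (-(α * T))) := main
    _ ≤ (∑ n ∈ range (n0 + 1), Cn n) * (C1 * Real.exp (δ * T) * (η + Real.exp (-(α * T)))) :=
      mul_le_mul hCle h1 (by positivity) hS
    _ ≤ _ := by
      have : 0 ≤ Real.exp (δ * T) * (η + Real.exp (-(α * T))) := by positivity
      nlinarith

end Crest.Agent.N221.PS
end

-- ▼ part N221/A1/PMain
section

/-! Row 221, A1: subexponential propagation `PSS` from the leaves `TayS`, `StepS`. -/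

set_option autoImplicit false

open Set Metric Finset
open scoped ContDiff Nat Topology

namespace Crest.Agent.N221.PS

/-- remainder constants, by recursion from the end of the chain -/
noncomputable def rrec (a D : ℝ) (m : ℕ → ℝ) : ℕ → ℝ
  | 0 => D
  | k + 1 => a * rrec a D m k + m k

section
variable {E V : Type} [NormedAddCommGroup E] [NormedSpace ℝ E]
  [NormedAddCommGroup V] [NormedSpace ℝ V] {R q b : ℝ} {c : ℕ → ℝ} {T : ℕ} {ψ : ℕ → E → E}
  {A : ℕ → E → V →L[ℝ] V} {f : ℕ → E → V}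

theorem Chain.iter (h : Chain R q b c T ψ A f) (hq : 0 < q) (hq1 : q < 1) (hb : 1 ≤ b)
    (j i : ℕ) (hj : j + i ≤ T) (x : E) (hx : x ∈ ball (0 : E) R) :
    ∃ y ∈ ball (0 : E) R, ‖y‖ ≤ q ^ i * ‖x‖ ∧ ‖f j x‖ ≤ b ^ i * ‖f (j + i) y‖ := by
  induction i with
  | zero => exact ⟨x, hx, by simp, by simp⟩
  | succ i ih =>
    obtain ⟨y, hy, h1, h2⟩ := ih (by omega)
    have hl : j + i < T := by omega
    have h3 := h.con _ hl y hy
    have hy' := mem_ball_zero_iff.1 hy
    refine ⟨ψ (j + i) y, ?_, ?_, ?_⟩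
    · rw [mem_ball_zero_iff]; nlinarith [norm_nonneg y]
    · calc ‖ψ (j + i) y‖ ≤ q * ‖y‖ := h3
        _ ≤ q * (q ^ i * ‖x‖) := mul_le_mul_of_nonneg_left h1 hq.le
        _ = q ^ (i + 1) * ‖x‖ := by ring
    · have h4 : ‖f (j + i) y‖ ≤ b * ‖f (j + i + 1) (ψ (j + i) y)‖ := by
        rw [h.rel _ hl y hy]
        exact ((A (j + i) y).le_opNorm _).trans
          (mul_le_mul_of_nonneg_right (h.nA _ hl y hy) (norm_nonneg _))
      calc ‖f j x‖ ≤ b ^ i * ‖f (j + i) y‖ := h2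
        _ ≤ b ^ i * (b * ‖f (j + i + 1) (ψ (j + i) y)‖) :=
          mul_le_mul_of_nonneg_left h4 (by positivity)
        _ = b ^ (i + 1) * ‖f (j + (i + 1)) (ψ (j + i) y)‖ := by rw [← add_assoc]; ring

end

set_option maxHeartbeats 800000 in
theorem psS (hT : TayS) (hS : StepS) : PSS := by
  intro E V _ _ _ _ _ _ R q b α δ c d hR hq hq1 hb hα hδ
  haveI : CompleteSpace V := FiniteDimensional.complete ℝ V
  choose K1 r0 hK1 hr0 hr0R hst using fun n => hS E V R q b c n hR hq hq1 hb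
  have hr : ∀ n, ∃ r : ℝ, 0 < r ∧ r < R ∧ K1 n * (6 * R) ^ n * r ≤ b * q ^ (n + 1) := by
    intro n
    have hp : 0 < K1 n * (6 * R) ^ n := by have := hK1 n; positivity
    refine ⟨min (R / 2) (b * q ^ (n + 1) / (K1 n * (6 * R) ^ n)), by positivity,
      (min_le_left _ _).trans_lt (by linarith), ?_⟩
    have := min_le_right (R / 2) (b * q ^ (n + 1) / (K1 n * (6 * R) ^ n))
    rw [le_div_iff₀ hp] at this
    linarith
  choose r hr hrR hrK using hr
  set K : ℕ → ℝ := fun n =>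
    K1 n * (6 * R / r n) ^ n + (6 * R / r0 n) ^ n * ((n + 1) * (max 1 R) ^ n) with hK
  have hKa : ∀ n, 0 ≤ K1 n * (6 * R / r n) ^ n := fun n => by
    have := hK1 n; have := hr n; positivity
  have hKb : ∀ n, 0 ≤ (6 * R / r0 n) ^ n * (((n : ℝ) + 1) * (max 1 R) ^ n) := fun n => by
    have := hr0 n; positivity
  have hK0 : ∀ n, 0 ≤ K n := fun n => add_nonneg (hKa n) (hKb n)
  obtain ⟨n0, C, hC, hnum⟩ := numS q b (6 * b) R α δ (fun k => max (d k) 0) K hq hq1 hb
    (by linarith) hR hα hδ hK0 (fun k => le_max_right _ _)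
  refine ⟨n0, C, hC, ?_⟩
  intro T ψ A f η hch hd hη
  have hη0 : 0 ≤ η := (norm_nonneg _).trans (hη 0 (Nat.zero_le _))
  have hE : 0 < Real.exp (α * T) := Real.exp_pos _
  have hd' : ∀ k, ∀ x ∈ ball (0 : E) R,
      ‖iteratedFDeriv ℝ k (f T) x‖ ≤ max (d k) 0 * Real.exp (α * T) := fun k x hx =>
    (hd k x hx).trans (mul_le_mul_of_nonneg_right (le_max_left _ _) hE.le)
  have hfT : ∀ x ∈ ball (0 : E) R, ‖f T x‖ ≤ max (d 0) 0 * Real.exp (α * T) := fun x hx => by
    simpa using hd' 0 x hx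
  set M : ℕ → ℝ := fun j => sSup ((fun x => ‖f j x‖) '' ball 0 R) with hM
  have hle : ∀ j ≤ T, ∀ x ∈ ball (0 : E) R, ‖f j x‖ ≤ M j := by
    intro j hj x hx
    refine le_csSup ⟨b ^ (T - j) * (max (d 0) 0 * Real.exp (α * T)), ?_⟩ ⟨x, hx, rfl⟩
    rintro _ ⟨x, hx, rfl⟩
    obtain ⟨y, hy, -, h2⟩ := hch.iter hq hq1 hb j (T - j) (by omega) x hx
    rw [show j + (T - j) = T by omega] at h2
    exact h2.trans (mul_le_mul_of_nonneg_left (hfT y hy) (by positivity))
  have hsup : ∀ j (m : ℝ), (∀ x ∈ ball (0 : E) R, ‖f j x‖ ≤ m) → M j ≤ m := by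
    intro j m h
    refine csSup_le ⟨_, 0, mem_ball_self hR, rfl⟩ ?_
    rintro _ ⟨x, hx, rfl⟩
    exact h x hx
  have hM0 : ∀ j ≤ T, 0 ≤ M j := fun j hj => (norm_nonneg _).trans (hle j hj 0 (mem_ball_self hR))
  set ρ' : ℕ → ℕ → ℝ := fun n => rrec (2 * b * q ^ (n + 1)) (max (d (n + 1)) 0 * Real.exp (α * T))
    (fun k => K n * M (T - k)) with hρ'
  have hrem : ∀ n k, k ≤ T → 0 ≤ ρ' n k ∧ ∀ x ∈ ball (0 : E) R,
      ‖f (T - k) x - tay n (f (T - k)) x‖ ≤ ρ' n k * ‖x‖ ^ (n + 1) := by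
    intro n k
    induction k with
    | zero =>
      intro _
      refine ⟨by simp only [hρ', rrec]; positivity, ?_⟩
      simp only [hρ', rrec, Nat.sub_zero]
      exact (hT E V n).1 (f T) R _ hch.smf (hd' (n + 1))
    | succ k ih =>
      intro hk
      obtain ⟨h0, h1⟩ := ih (by omega)
      have hMk := hM0 (T - k) (by omega)
      have e : ρ' n (k + 1) = 2 * b * q ^ (n + 1) * ρ' n k + K n * M (T - k) := by
        simp only [hρ', rrec]
      refine ⟨by rw [e]; have := hK0 n; positivity, ?_⟩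
      have e2 : T - k = T - (k + 1) + 1 := by omega
      have hp : ∀ x : E, ‖x‖ ≤ R →
          ‖tay n (f (T - k)) x‖ ≤ (6 * R / r n) ^ n * (M (T - k) + ρ' n k * r n ^ (n + 1)) := by
        refine (hT E V n).2.1 _ (r n) R _ (hr n) (hrR n).le ?_
        intro x hx
        have hx' : x ∈ ball (0 : E) R := mem_ball_zero_iff.2 (hx.trans_lt (hrR n))
        have a1 := h1 x hx'
        have a2 := hle (T - k) (by omega) x hx'
        have a3 : ρ' n k * ‖x‖ ^ (n + 1) ≤ ρ' n k * r n ^ (n + 1) := by gcongr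
        have a4 := norm_sub_le (f (T - k) x) (f (T - k) x - tay n (f (T - k)) x)
        rw [sub_sub_cancel] at a4
        linarith
      intro x hx
      have h2 := ((hst n T ψ A f hch).2 (T - (k + 1)) (by omega)).1 (ρ' n k) _ h0
        (by rw [← e2]; exact h1) (by rw [← e2]; exact hp) x hx
      refine h2.trans (mul_le_mul_of_nonneg_right ?_ (by positivity))
      rw [e]
      have a1 : K1 n * ((6 * R / r n) ^ n * (M (T - k) + ρ' n k * r n ^ (n + 1)))
          = K1 n * (6 * R / r n) ^ n * M (T - k) + K1 n * (6 * R) ^ n * r n * ρ' n k := by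
        have := (hr n).ne'
        rw [div_pow, pow_succ]; field_simp
      have a2 := mul_le_mul_of_nonneg_right (hrK n) h0
      have a3 : K1 n * (6 * R / r n) ^ n * M (T - k) ≤ K n * M (T - k) :=
        mul_le_mul_of_nonneg_right (le_add_of_nonneg_right (hKb n)) hMk
      linarith
  have hpol : ∀ n ≤ n0, ∀ j ≤ T, ∀ x : E, ‖x‖ ≤ R →
      ‖tay n (f j) x‖ ≤ K n * (6 * b) ^ ((n + 1) * j) * η := by
    intro n hn
    have h1 : ∀ j ≤ T, ∀ x : E, ‖x‖ ≤ r0 n →
        ‖tay n (f j) x‖ ≤ (6 * b) ^ ((n + 1) * j) * ((n + 1) * (max 1 R) ^ n * η) := by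
      intro j
      induction j with
      | zero =>
        intro _ x hx
        simp only [mul_zero, pow_zero, one_mul]
        exact (hT E V n).2.2.2.1 _ _ _ (le_max_left _ _) (fun i hi => hη i (hi.trans hn)) x
          (hx.trans ((hr0R n).le.trans (le_max_right _ _)))
      | succ j ih =>
        intro hj x hx
        refine (((hst n T ψ A f hch).2 j (by omega)).2 _ (ih (by omega)) x hx).trans ?_
        rw [mul_add (n + 1) j 1, mul_one, pow_add,
          mul_comm ((6 * b) ^ ((n + 1) * j)) ((6 * b) ^ (n + 1)), mul_assoc ((6 * b) ^ (n + 1))]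
        refine mul_le_mul_of_nonneg_right ?_ (by positivity)
        rw [pow_succ]
        have : 0 ≤ (6 * b) ^ n := by positivity
        nlinarith
    intro j hj x hx
    refine ((hT E V n).2.1 _ (r0 n) R _ (hr0 n) (hr0R n).le (h1 j hj) x hx).trans ?_
    have a1 : (6 * R / r0 n) ^ n * ((n + 1) * (max 1 R) ^ n) ≤ K n := le_add_of_nonneg_left (hKa n)
    have a2 : 0 ≤ (6 * b) ^ ((n + 1) * j) * η := by positivity
    have a3 := mul_le_mul_of_nonneg_right a1 a2
    linarith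
  have main := hnum T η M (fun n j => ρ' n (T - j)) (fun n j => K n * (6 * b) ^ ((n + 1) * j) * η)
    hη0 (by
      intro j hj
      refine hsup j _ fun x hx => ?_
      obtain ⟨y, hy, -, h2⟩ := hch.iter hq hq1 hb j 1 (by omega) x hx
      rw [pow_one] at h2
      exact h2.trans (mul_le_mul_of_nonneg_left (hle _ (by omega) y hy) (by positivity)))
    (hsup T _ hfT) (by intro n _; simp only [Nat.sub_self, hρ', rrec]; exact le_rfl) (by
      intro n _ j hj
      have e : T - j = T - (j + 1) + 1 := by omega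
      have e2 : T - (T - (j + 1)) = j + 1 := by omega
      simp only [e, hρ', rrec, e2]; exact le_rfl) (fun n _ j _ => le_rfl) (by
      intro n hn j i hji
      refine hsup j _ fun x hx => ?_
      obtain ⟨y, hy, h1, h2⟩ := hch.iter hq hq1 hb j i hji x hx
      refine h2.trans (mul_le_mul_of_nonneg_left ?_ (by positivity))
      obtain ⟨h0, h3⟩ := hrem n (T - (j + i)) (by omega)
      rw [show T - (T - (j + i)) = j + i by omega] at h3
      have a1 := h3 y hy
      have a2 := hpol n hn (j + i) hji y (mem_ball_zero_iff.1 hy).le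
      have a3 : ‖y‖ ≤ q ^ i * R :=
        h1.trans (mul_le_mul_of_nonneg_left (mem_ball_zero_iff.1 hx).le (by positivity))
      have a4 : ρ' n (T - (j + i)) * ‖y‖ ^ (n + 1) ≤ ρ' n (T - (j + i)) * (q ^ i * R) ^ (n + 1) := by
        gcongr
      have a5 := norm_add_le (tay n (f (j + i)) y) (f (j + i) y - tay n (f (j + i)) y)
      rw [add_sub_cancel] at a5
      linarith)
  intro x hx
  exact (hle 0 (Nat.zero_le _) x hx).trans main

end Crest.Agent.N221.PS
private theorem rz_6755c30a53 : type_of% @_root_.Crest.Agent.N221.PS.rrec.eq_def := @_root_.Crest.Agent.N221.PS.rrec.eq_def -- L13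
private theorem rz_7d55ffdba2 : type_of% @_root_.Crest.Agent.N221.PS.rrec.eq_1 := @_root_.Crest.Agent.N221.PS.rrec.eq_1 -- L13
end

-- ▼ part N221/A1/PCl
section

/-! Row 221, A1: the curve lemma `CLS` from the leaves `CPS`, `IntS`. -/

set_option autoImplicit false

open Set Metric Finset Filter
open scoped ContDiff Nat Topology

namespace Crest.Agent.N221.PS

theorem ev_small (X γ ε : ℝ) (hγ : 0 < γ) (hε : 0 < ε) :
    ∀ᶠ T : ℕ in atTop, X * Real.exp (-(γ * T)) < ε := by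
  have h1 : Tendsto (fun T : ℕ => γ * (T : ℝ)) atTop atTop :=
    tendsto_natCast_atTop_atTop.const_mul_atTop hγ
  have h2 : Tendsto (fun T : ℕ => X * Real.exp (-(γ * T))) atTop (𝓝 (X * 0)) :=
    (Real.tendsto_exp_neg_atTop_nhds_zero.comp h1).const_mul X
  rw [mul_zero] at h2
  exact h2.eventually (gt_mem_nhds hε)

theorem ex_bd (u : ℕ → ℝ) (N : ℕ) : ∃ C : ℝ, 1 ≤ C ∧ ∀ k ≤ N, u k ≤ C := by
  refine ⟨1 + ∑ k ∈ range (N + 1), |u k|, ?_, fun k hk => ?_⟩
  · have : 0 ≤ ∑ k ∈ range (N + 1), |u k| := sum_nonneg fun _ _ => abs_nonneg _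
    linarith
  · have := single_le_sum (f := fun k => |u k|) (fun _ _ => abs_nonneg _)
      (mem_range.2 (Nat.lt_succ_of_le hk))
    have := le_abs_self (u k)
    linarith

set_option maxHeartbeats 800000 in
theorem clS (hC : CPS) (hI : IntS) : CLS := by
  intro R a g α β K c d hR ha hg hα hβ
  obtain ⟨m, hm⟩ := exists_nat_ge ((β + g + α + Real.log (a + 1) + 1) / g)
  rw [div_le_iff₀ hg] at hm
  refine ⟨2 ^ m, fun N hN => ?_⟩
  have hN1 : 1 ≤ N := Nat.one_le_two_pow.trans hN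
  have hlog : m ≤ Nat.log 2 N := Nat.le_log_of_pow_le (by norm_num) hN
  obtain ⟨c1, hc1, hc⟩ := ex_bd c N
  obtain ⟨D, hD1, hD⟩ := ex_bd d N
  choose Cn hCn hcp using fun n => hC n c1 hc1
  obtain ⟨C, hC1, hCC⟩ := ex_bd Cn N
  obtain ⟨CI, hCI, hint⟩ := hI N
  obtain ⟨T0, hT0⟩ := eventually_atTop.1 ((ev_small K (2 * g) R (by positivity) hR).and
    ((ev_small (CI * K) g (1 / 2) hg (by norm_num)).and
    ((ev_small (CI * (D * C ^ N)) 1 (1 / 2) one_pos (by norm_num)).and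
    (ev_small ((c1 + 1) * (D * C ^ N)) 1 1 one_pos one_pos))))
  refine ⟨T0, ?_⟩
  intro E F _ _ _ _ _ S0 T Φ x hT hΦ hx hxT hsm hder
  obtain ⟨t1, t2, t3, t4⟩ := hT0 T hT
  set w := Real.exp (-(g * T)) with hw
  have hT' : (0 : ℝ) ≤ T := by positivity
  have hw0 : 0 < w := Real.exp_pos _
  have hw1 : w ≤ 1 := Real.exp_le_one_iff.2 (by have := mul_nonneg hg.le hT'; linarith)
  set H : ℕ → ℝ := fun k => D * (a + 1) ^ k * Real.exp (α * T) with hH
  have hH0 : ∀ k, 0 ≤ H k := fun k => by simp only [hH]; positivity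
  have htop : ∀ k ≤ T, H k * C ^ N * w ^ Nat.log 2 N
      ≤ D * C ^ N * Real.exp (-(1 * T)) * (w * Real.exp (-(β * T))) := by
    intro k hk
    have a1 : (a + 1) ^ k ≤ Real.exp (Real.log (a + 1) * T) := by
      rw [mul_comm, Real.exp_nat_mul, Real.exp_log (by linarith)]
      exact pow_le_pow_right₀ (by linarith) hk
    have a2 : w ^ Nat.log 2 N ≤ Real.exp (-(m * g * T)) := by
      refine (pow_le_pow_of_le_one hw0.le hw1 hlog).trans (le_of_eq ?_)
      rw [hw, ← Real.exp_nat_mul]; ring_nf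
    have a3 : Real.exp (Real.log (a + 1) * T) * Real.exp (α * T) * Real.exp (-(m * g * T))
        ≤ Real.exp (-(1 * T)) * (w * Real.exp (-(β * T))) := by
      rw [hw, ← Real.exp_add, ← Real.exp_add, ← Real.exp_add, ← Real.exp_add]
      apply Real.exp_le_exp.2
      have := mul_le_mul_of_nonneg_right hm hT'
      linarith
    calc H k * C ^ N * w ^ Nat.log 2 N
        = D * C ^ N * ((a + 1) ^ k * Real.exp (α * T) * w ^ Nat.log 2 N) := by simp only [hH]; ring
      _ ≤ D * C ^ N * (Real.exp (Real.log (a + 1) * T) * Real.exp (α * T)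
          * Real.exp (-(m * g * T))) := by gcongr
      _ ≤ D * C ^ N * (Real.exp (-(1 * T)) * (w * Real.exp (-(β * T)))) := by gcongr
      _ = _ := by ring
  have hβ1 : Real.exp (-(β * T)) ≤ 1 :=
    Real.exp_le_one_iff.2 (by have := mul_nonneg hβ hT'; linarith)
  have hball : ∀ S, S0 ≤ S → S ≤ T → ∀ τ ∈ Icc (0 : ℝ) 1, x S τ ∈ ball (0 : E) R :=
    fun S h1 h2 τ hτ => mem_ball_zero_iff.2 ((hsm S h1 h2 τ hτ).trans_lt t1)
  have hwb : ∀ S k, S0 ≤ S → S + k = T → (∀ τ ∈ Icc (0 : ℝ) 1, ContDiffAt ℝ ∞ (x S) τ) →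
      (∀ τ ∈ Icc (0 : ℝ) 1, ∀ j, 1 ≤ j → j ≤ N →
        ‖iteratedDeriv j (x S) τ‖ ≤ H k * C ^ j * w ^ Nat.log 2 j) →
      ∀ τ ∈ Icc (0 : ℝ) 1, ∀ j ≤ N, ‖iteratedDeriv j (x S) τ‖ ≤ w := by
    intro S k h1 h2 h3 h4 τ hτ j hj
    refine (hint E (x S) _ _ h3 (hsm S h1 (by omega)) (fun t ht => h4 t ht N hN1 le_rfl)
      j hj τ hτ).trans ?_
    have a1 := htop k (by omega)
    have a2 : Real.exp (-(2 * g * T)) = Real.exp (-(g * T)) * w := by
      rw [hw, ← Real.exp_add]; ring_nf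
    have a3 : D * C ^ N * Real.exp (-(1 * T)) * (w * Real.exp (-(β * T)))
        ≤ D * C ^ N * Real.exp (-(1 * T)) * (w * 1) := by gcongr
    have a4 := mul_le_mul_of_nonneg_left (a1.trans a3) (show 0 ≤ CI by linarith)
    have a5 := mul_le_mul_of_nonneg_right t2.le hw0.le
    have a6 := mul_le_mul_of_nonneg_right t3.le hw0.le
    rw [a2]
    linarith
  have hcomp : ∀ (F : Type) [NormedAddCommGroup F] [NormedSpace ℝ F] (y : ℝ → E) (G : E → F)
      (τ h a' : ℝ), 0 ≤ h → ContDiffAt ℝ ∞ y τ → y τ ∈ ball (0 : E) R →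
      ContDiffOn ℝ ∞ G (ball 0 R) → ‖fderiv ℝ G (y τ)‖ ≤ a' →
      (∀ k, 1 ≤ k → ‖iteratedFDeriv ℝ k G (y τ)‖ ≤ c k) →
      (∀ j ≤ N, ‖iteratedDeriv j y τ‖ ≤ w) →
      (∀ j, 1 ≤ j → j ≤ N → ‖iteratedDeriv j y τ‖ ≤ h * C ^ j * w ^ Nat.log 2 j) →
      ∀ j, 1 ≤ j → j ≤ N →
        ‖iteratedDeriv j (G ∘ y) τ‖ ≤ (a' + 1) * h * C ^ j * w ^ Nat.log 2 j := by
    intro F _ _ y G τ h a' h0 hy hb hG hG1 hGk h1 h2 j hj1 hj
    obtain ⟨n, rfl⟩ : ∃ n, j = n + 1 := ⟨j - 1, by omega⟩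
    have hp : Prof y τ w (h * C ^ n) n := fun i hi1 hi => ⟨h1 i (by omega),
      (h2 i hi1 (by omega)).trans (by gcongr)⟩
    have a1 := (hcp n E F y G τ w (h * C ^ n) hy (hG.contDiffAt (isOpen_ball.mem_nhds hb)) hw0.le
      hw1 (by positivity) (fun k hk1 hk => (hGk k hk1).trans (hc k (by omega))) hp).1
    have a2 : ‖fderiv ℝ G (y τ) (iteratedDeriv (n + 1) y τ)‖
        ≤ a' * (h * C ^ (n + 1) * w ^ Nat.log 2 (n + 1)) :=
      ((fderiv ℝ G (y τ)).le_opNorm _).trans
        (mul_le_mul hG1 (h2 _ hj1 hj) (norm_nonneg _) ((norm_nonneg _).trans hG1))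
    have a3 : Cn n * (h * C ^ n * w ^ Nat.log 2 (n + 1))
        ≤ C * (h * C ^ n * w ^ Nat.log 2 (n + 1)) :=
      mul_le_mul_of_nonneg_right (hCC n (by omega)) (by positivity)
    have a4 := norm_add_le (fderiv ℝ G (y τ) (iteratedDeriv (n + 1) y τ))
      (iteratedDeriv (n + 1) (G ∘ y) τ - fderiv ℝ G (y τ) (iteratedDeriv (n + 1) y τ))
    rw [add_sub_cancel] at a4
    rw [pow_succ C n] at a2 ⊢
    linarith
  have hind : ∀ k S, S0 ≤ S → S + k = T → (∀ τ ∈ Icc (0 : ℝ) 1, ContDiffAt ℝ ∞ (x S) τ) ∧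
      ∀ τ ∈ Icc (0 : ℝ) 1, ∀ j, 1 ≤ j → j ≤ N →
        ‖iteratedDeriv j (x S) τ‖ ≤ H k * C ^ j * w ^ Nat.log 2 j := by
    intro k
    induction k with
    | zero =>
      intro S _ h2
      obtain rfl : S = T := by omega
      refine ⟨hxT, fun τ hτ j hj1 hj => (hder j hj1 τ hτ).trans ?_⟩
      refine mul_le_mul_of_nonneg_right ?_ (by positivity)
      have a1 : d j * Real.exp (α * S) ≤ H 0 := by
        simp only [hH, pow_zero, mul_one]
        exact mul_le_mul_of_nonneg_right (hD j hj) (Real.exp_pos _).le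
      exact a1.trans (le_mul_of_one_le_right (hH0 0) (one_le_pow₀ hC1))
    | succ k ih =>
      intro S h1 h2
      obtain ⟨i1, i2⟩ := ih (S + 1) (by omega) (by omega)
      have i3 := hwb (S + 1) k (by omega) (by omega) i1 i2
      obtain ⟨p1, p2⟩ := hΦ S h1 (by omega)
      refine ⟨fun τ hτ => ?_, fun τ hτ j hj1 hj => ?_⟩
      · have hb := hball (S + 1) (by omega) (by omega) τ hτ
        exact ((p1.contDiffAt (isOpen_ball.mem_nhds hb)).comp τ (i1 τ hτ)).congr_of_eventuallyEq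
          (hx S h1 (by omega) τ hτ)
      · have hb := hball (S + 1) (by omega) (by omega) τ hτ
        rw [(hx S h1 (by omega) τ hτ).iteratedDeriv_eq]
        refine (hcomp E _ _ τ (H k) a (hH0 k) (i1 τ hτ) hb p1 (p2 _ hb).1 (p2 _ hb).2 (i3 τ hτ)
          (i2 τ hτ) j hj1 hj).trans (le_of_eq ?_)
        simp only [hH]; ring
  intro S h1 h2 τ hτ
  obtain ⟨k, hk⟩ := Nat.exists_eq_add_of_le h2
  obtain ⟨i1, i2⟩ := hind k S h1 hk.symm
  have i3 := hwb S k h1 hk.symm i1 i2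
  refine ⟨i1 τ hτ, fun j _ hj => i3 τ hτ j hj, fun G hG hGk => ?_⟩
  have hb := hball S h1 h2 τ hτ
  have a0 : ‖fderiv ℝ G (x S τ)‖ ≤ c1 := by
    rw [← norm_iteratedFDeriv_one]; exact (hGk _ hb 1 le_rfl).trans (hc 1 hN1)
  refine (hcomp F _ G τ (H k) c1 (hH0 k) (i1 τ hτ) hb hG a0 (hGk _ hb) (i3 τ hτ)
    (i2 τ hτ) N hN1 le_rfl).trans ?_
  have a1 := htop k (by omega)
  have a3 : D * C ^ N * Real.exp (-(1 * T)) * (w * Real.exp (-(β * T)))
      ≤ D * C ^ N * Real.exp (-(1 * T)) * (1 * Real.exp (-(β * T))) := by gcongr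
  have a4 := mul_le_mul_of_nonneg_left (a1.trans a3) (show 0 ≤ c1 + 1 by linarith)
  have a5 := mul_le_mul_of_nonneg_right t4.le (Real.exp_pos (-(β * T))).le
  linarith

end Crest.Agent.N221.PS
end

-- ▼ part N221/A1/CP
section

/-!
Row 221, step A1: the nonlinear part of the derivative of a composition (helper35).
-/

set_option autoImplicit false

open Set Metric Finset
open scoped ContDiff Nat Topology

namespace Crest.Agent.N221.PS

namespace CP

variable {E F : Type} [NormedAddCommGroup E] [NormedSpace ℝ E] [NormedAddCommGroup F]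
  [NormedSpace ℝ F] {τ : ℝ}

/-- Leibniz bound at a point -/
lemma leib (n : ℕ) {f : ℝ → E →L[ℝ] F} {g : ℝ → E} (hf : ContDiffAt ℝ n f τ)
    (hg : ContDiffAt ℝ n g τ) : ‖iteratedDeriv n (fun t => f t (g t)) τ‖ ≤
      ∑ i ∈ range (n + 1), n.choose i * ‖iteratedDeriv i f τ‖ * ‖iteratedDeriv (n - i) g τ‖ := by
  obtain ⟨s, h1, h2, h3⟩ := _root_.eventually_nhds_iff.1
    ((hf.eventually (by simp)).and (hg.eventually (by simp)))
  have := norm_iteratedFDerivWithin_clm_apply (fun t ht => (h1 t ht).1.contDiffWithinAt)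
    (fun t ht => (h1 t ht).2.contDiffWithinAt) h2.uniqueDiffOn h3 le_rfl
  simpa only [iteratedFDerivWithin_of_isOpen _ h2 h3, norm_iteratedFDeriv_eq_norm_iteratedDeriv]
    using this

lemma key (n : ℕ) {y : ℝ → E} {G : E → F} (hy : ContDiffAt ℝ ∞ y τ)
    (hG : ContDiffAt ℝ ∞ G (y τ)) :
    ‖iteratedDeriv (n + 1) (G ∘ y) τ - fderiv ℝ G (y τ) (iteratedDeriv (n + 1) y τ)‖ ≤
      ∑ i ∈ range n, n.choose (i + 1) * (‖iteratedDeriv (i + 1) (fderiv ℝ G ∘ y) τ‖ *
        ‖iteratedDeriv (n - i) y τ‖) := by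
  have h1 : ContDiffAt ℝ n (fderiv ℝ G ∘ y) τ :=
    (hG.fderiv_right (m := n) (by exact_mod_cast le_top)).comp τ (hy.of_le (by exact_mod_cast le_top))
  have h2 : ContDiffAt ℝ n (deriv y) τ := hy.derivWithin (by exact_mod_cast le_top)
  have e1 : deriv (G ∘ y) =ᶠ[𝓝 τ] fun t => (fderiv ℝ G ∘ y) t (deriv y t) := by
    filter_upwards [(hy.of_le (m := 1) (by simp)).eventually (by simp),
      hy.continuousAt.eventually ((hG.of_le (m := 1) (by simp)).eventually (by simp))] with t k1 k2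
    exact ((k2.differentiableAt (by simp)).hasFDerivAt.comp_hasDerivAt t
      (k1.differentiableAt (by simp)).hasDerivAt).deriv
  have e2 : fderiv ℝ G (y τ) (iteratedDeriv n (deriv y) τ) =
      iteratedDeriv n (fderiv ℝ G (y τ) ∘ deriv y) τ := by
    rw [iteratedDeriv, iteratedDeriv, ContinuousLinearMap.iteratedFDeriv_comp_left _ h2 le_rfl]
    rfl
  rw [iteratedDeriv_succ', iteratedDeriv_succ', e1.iteratedDeriv_eq, e2, ← iteratedDeriv_sub
    (h1.clm_apply h2) ((fderiv ℝ G (y τ)).contDiff.contDiffAt.comp τ h2)]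
  have h3 := leib n (f := fun t => -fderiv ℝ G (y τ) + (fderiv ℝ G ∘ y) t)
    (contDiffAt_const.add h1) h2
  rw [sum_range_succ', iteratedDeriv_zero, Function.comp_apply, neg_add_cancel, norm_zero, mul_zero,
    zero_mul, add_zero] at h3
  refine le_of_eq_of_le ?_ (h3.trans_eq (sum_congr rfl fun i hi => ?_))
  · congr 2
    funext t
    simp [sub_eq_neg_add]
  · rw [iteratedDeriv_const_add (Nat.succ_pos i), ← iteratedDeriv_succ', mul_assoc,
      show n - (i + 1) + 1 = n - i by have := mem_range.1 hi; omega]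

lemma pow_log {w : ℝ} (h0 : 0 ≤ w) (h1 : w ≤ 1) {a b : ℕ} (ha : 1 ≤ a) (h : b ≤ a * 2) :
    w ^ Nat.log 2 a * w ≤ w ^ Nat.log 2 b := by
  rw [← pow_succ, ← Nat.log_mul_base one_lt_two (by omega)]
  exact pow_le_pow_of_le_one h0 h1 (Nat.log_mono_right h)

end CP

open CP

theorem cpS : CPS := by
  intro n c hc
  induction n using Nat.strong_induction_on with
  | _ n ih =>
  choose! C hC1 hC using ih
  have p0 : ∀ i ∈ range n, 0 ≤ (n.choose (i + 1) : ℝ) * (C i + c) := fun i hi =>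
    mul_nonneg (Nat.cast_nonneg _) (by linarith [hC1 i (mem_range.1 hi)])
  refine ⟨1 + ∑ i ∈ range n, n.choose (i + 1) * (C i + c), by linarith [sum_nonneg p0],
    fun E F _ _ _ _ y G τ w H hy hG w0 w1 H0 hc' hP => ?_⟩
  have main : ∀ i ∈ range n, ‖iteratedDeriv (i + 1) (fderiv ℝ G ∘ y) τ‖ *
      ‖iteratedDeriv (n - i) y τ‖ ≤ (C i + c) * (H * w ^ Nat.log 2 (n + 1)) ∧
      ‖iteratedDeriv (i + 1) (fderiv ℝ G ∘ y) τ‖ * ‖iteratedDeriv (n - i) y τ‖ ≤ (C i + c) * w := by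
    intro i hi
    rw [Finset.mem_range] at hi
    obtain ⟨k1, k2⟩ := hC i hi E (E →L[ℝ] F) y (fderiv ℝ G) τ w H hy (hG.fderiv_right (by simp)) w0
      w1 H0 (fun k a1 a2 => by rw [norm_iteratedFDeriv_fderiv]; exact hc' _ (by omega) (by omega))
      fun j a1 a2 => hP j a1 (by omega)
    have k3 : ‖fderiv ℝ (fderiv ℝ G) (y τ)‖ ≤ c := by
      rw [← norm_iteratedFDeriv_one, norm_iteratedFDeriv_fderiv]
      exact hc' _ (by omega) (by omega)
    have k4 := (fderiv ℝ (fderiv ℝ G) (y τ)).le_of_opNorm_le k3 (iteratedDeriv (i + 1) y τ)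
    obtain ⟨a1, a2⟩ := hP (i + 1) (by omega) (by omega)
    obtain ⟨b1, b2⟩ := hP (n - i) (by omega) (by omega)
    have k5 := norm_le_norm_sub_add (iteratedDeriv (i + 1) (fderiv ℝ G ∘ y) τ)
      (fderiv ℝ (fderiv ℝ G) (y τ) (iteratedDeriv (i + 1) y τ))
    have c1 : ‖iteratedDeriv (i + 1) (fderiv ℝ G ∘ y) τ‖ ≤ (C i + c) * w := by nlinarith
    have c2 : ‖iteratedDeriv (i + 1) (fderiv ℝ G ∘ y) τ‖ ≤
        (C i + c) * (H * w ^ Nat.log 2 (i + 1)) := by nlinarith
    have c0 : 0 ≤ C i + c := by linarith [hC1 i hi]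
    refine ⟨?_, (mul_le_mul c1 (b1.trans w1) (norm_nonneg _) (by positivity)).trans_eq (mul_one _)⟩
    rcases le_total (n - i) (i + 1) with e | e
    · refine (mul_le_mul c2 b1 (norm_nonneg _) (by positivity)).trans ?_
      rw [mul_assoc, mul_assoc]
      gcongr
      exact pow_log w0 w1 (by omega) (by omega)
    · refine (mul_le_mul c1 b2 (norm_nonneg _) (by positivity)).trans ?_
      rw [mul_assoc, mul_left_comm w, mul_comm w]
      gcongr
      exact pow_log w0 w1 (by omega) (by omega)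
  have fin : ∀ u : ℝ, 0 ≤ u → (∀ i ∈ range n, ‖iteratedDeriv (i + 1) (fderiv ℝ G ∘ y) τ‖ *
      ‖iteratedDeriv (n - i) y τ‖ ≤ (C i + c) * u) →
      ‖iteratedDeriv (n + 1) (G ∘ y) τ - fderiv ℝ G (y τ) (iteratedDeriv (n + 1) y τ)‖ ≤
        (1 + ∑ i ∈ range n, n.choose (i + 1) * (C i + c)) * u := fun u hu h => by
    refine (key n hy hG).trans ?_
    rw [add_mul, sum_mul]
    refine le_add_of_nonneg_of_le (by linarith) (sum_le_sum fun i hi => ?_)
    rw [mul_assoc]
    exact mul_le_mul_of_nonneg_left (h i hi) (Nat.cast_nonneg _)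
  exact ⟨fin _ (by positivity) fun i hi => (main i hi).1, fin _ w0 fun i hi => (main i hi).2⟩

end Crest.Agent.N221.PS
end

-- ▼ part N221/A1/Int
section

/-! Row 221, step A1: interpolation of derivatives (`IntS`), no devil staircase (`StairS`). -/

set_option autoImplicit false

open Set Metric
open scoped ContDiff Topology

namespace Crest.Agent.N221.PS

namespace Int

variable {V : Type} [NormedAddCommGroup V] [NormedSpace ℝ V]

lemma sm {f : ℝ → V} {t : ℝ} (h : ContDiffAt ℝ ∞ f t) : ∀ k, ContDiffAt ℝ ∞ (iteratedDeriv k f) t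
  | 0 => by simpa using h
  | k + 1 => by rw [iteratedDeriv_succ]; exact (sm h k).derivWithin (by simp)

lemma der {f : ℝ → V} {t : ℝ} (h : ContDiffAt ℝ ∞ f t) (k : ℕ) :
    HasDerivAt (iteratedDeriv k f) (iteratedDeriv (k + 1) f t) t := by
  rw [iteratedDeriv_succ]
  exact ((sm h k).differentiableAt (by simp)).hasDerivAt

/-- Landau's inequality on `[0, 1]` -/
lemma landau {g g' g'' : ℝ → V} {A B h t : ℝ} (h1 : ∀ u ∈ Icc (0 : ℝ) 1, HasDerivAt g (g' u) u)
    (h2 : ∀ u ∈ Icc (0 : ℝ) 1, HasDerivAt g' (g'' u) u) (hA : ∀ u ∈ Icc (0 : ℝ) 1, ‖g u‖ ≤ A)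
    (hB : ∀ u ∈ Icc (0 : ℝ) 1, ‖g'' u‖ ≤ B) (h0 : 0 < h) (hh : h ≤ 1 / 2) (ht : t ∈ Icc (0 : ℝ) 1) :
    ‖g' t‖ ≤ 2 * A / h + h * B := by
  obtain ⟨s, hs, e⟩ : ∃ s ∈ Icc (0 : ℝ) 1, ‖s - t‖ = h := by
    rcases le_total t (1 / 2) with h' | h'
    · exact ⟨t + h, ⟨by linarith [ht.1], by linarith⟩, by simp [h0.le]⟩
    · exact ⟨t - h, ⟨by linarith, by linarith [ht.2]⟩, by simp [h0.le]⟩
  have B0 := (norm_nonneg _).trans (hB t ht)
  have k := Convex.norm_image_sub_le_of_norm_hasDerivWithin_le (f := fun u => g u - u • g' t)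
    (f' := fun u => g' u - g' t) (s := Icc 0 1 ∩ closedBall t h) (C := B * h) (x := t) (y := s)
    (fun u hu => by
      simpa using ((h1 u hu.1).fun_sub ((hasDerivAt_id u).smul_const (g' t))).hasDerivWithinAt)
    (fun u hu => (Convex.norm_image_sub_le_of_norm_hasDerivWithin_le
      (fun v hv => (h2 v hv).hasDerivWithinAt) hB (convex_Icc 0 1) ht hu.1).trans
      (mul_le_mul_of_nonneg_left (mem_closedBall_iff_norm.1 hu.2) B0))
    ((convex_Icc 0 1).inter (convex_closedBall t h)) ⟨ht, mem_closedBall_self h0.le⟩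
    ⟨hs, mem_closedBall_iff_norm.2 e.le⟩
  have e1 : (s - t) • g' t = g s - g t - (g s - s • g' t - (g t - t • g' t)) := by
    rw [sub_smul]; abel
  have e2 : h * ‖g' t‖ ≤ A + A + B * h * h := by
    rw [← e, ← norm_smul, e1]
    exact norm_sub_le_of_le (norm_sub_le_of_le (hA s hs) (hA t ht)) (by rwa [← e] at k)
  rw [div_add' _ _ _ h0.ne', le_div_iff₀ h0]
  linarith

def Ld (M : ℕ → ℝ) : Prop := (∀ k, 0 ≤ M k) ∧
  ∀ k h, 0 < h → h ≤ 1 / 2 → M (k + 1) ≤ 2 * M k / h + h * M (k + 2)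

lemma num1 : ∀ (k : ℕ) (ε : ℝ), 0 < ε → ∃ C, 0 ≤ C ∧ ∀ M, Ld M → M k ≤ ε * M (k + 1) + C * M 0
  | 0, ε, hε => ⟨1, zero_le_one, fun M h => by linarith [mul_nonneg hε.le (h.1 (0 + 1))]⟩
  | k + 1, ε, hε => by
    obtain ⟨h, h0, h1, h2⟩ : ∃ h : ℝ, 0 < h ∧ h ≤ 1 / 2 ∧ 2 * h ≤ ε :=
      ⟨min (1 / 2) (ε / 2), by positivity, min_le_left _ _, by linarith [min_le_right (1 / 2) (ε / 2)]⟩
    obtain ⟨C, C0, hC⟩ := num1 k (h / 4) (by positivity)
    refine ⟨4 * C / h, by positivity, fun M hM => ?_⟩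
    have a1 := hM.2 k h h0 h1
    have a2 : 2 * M k / h ≤ 2 * (h / 4 * M (k + 1) + C * M 0) / h := by gcongr; exact hC M hM
    have a3 : 2 * (h / 4 * M (k + 1) + C * M 0) / h = M (k + 1) / 2 + 4 * C / h * M 0 / 2 := by
      field_simp; ring
    have a4 := mul_le_mul_of_nonneg_right h2 (hM.1 (k + 2))
    linarith

lemma num2 : ∀ N : ℕ, ∃ C, 1 ≤ C ∧ ∀ M, Ld M → ∀ j ≤ N, M j ≤ C * (M 0 + M N)
  | 0 => ⟨1, le_rfl, fun M h j hj => by
      obtain rfl := Nat.le_zero.1 hj
      linarith [h.1 0]⟩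
  | N + 1 => by
    obtain ⟨C, C1, hC⟩ := num2 N
    obtain ⟨C', C0, hC'⟩ := num1 N 1 one_pos
    have h1 : 1 ≤ C * (1 + C') := one_le_mul_of_one_le_of_one_le C1 (by linarith)
    refine ⟨C * (1 + C'), h1, fun M hM j hj => ?_⟩
    have m0 := hM.1 0
    have m1 := hM.1 (N + 1)
    rcases hj.eq_or_lt with rfl | hj
    · nlinarith
    · refine (hC M hM j (by omega)).trans ?_
      rw [mul_assoc]
      refine mul_le_mul_of_nonneg_left ?_ (by linarith)
      nlinarith [hC' M hM]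

end Int

theorem intS : IntS := by
  intro N
  obtain ⟨C, C1, hC⟩ := Int.num2 N
  refine ⟨C, C1, fun V _ _ _ f m0 mN hf h0 hN j hj t ht => ?_⟩
  choose τ hτ hm using fun k => isCompact_Icc.exists_isMaxOn (nonempty_Icc.2 zero_le_one)
    (f := fun t => ‖iteratedDeriv k f t‖) fun u hu =>
      (Int.sm (hf u hu) k).continuousAt.norm.continuousWithinAt
  have := hC (fun k => ‖iteratedDeriv k f (τ k)‖) ⟨fun _ => norm_nonneg _, fun k h h1 h2 =>
    Int.landau (fun u hu => Int.der (hf u hu) k) (fun u hu => Int.der (hf u hu) (k + 1))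
      (fun u hu => hm k hu) (fun u hu => hm (k + 2) hu) h1 h2 (hτ _)⟩ j hj
  refine (hm j ht).trans (this.trans (mul_le_mul_of_nonneg_left ?_ (by linarith)))
  exact add_le_add (by simpa using h0 _ (hτ 0)) (hN _ (hτ N))


end Crest.Agent.N221.PS
end

-- ▼ part N221/A1/PAll

/-! Row 221, A1: the real variable tools, unconditional. -/

namespace Crest.Agent.N221.PS

theorem tay_ : TayS := tayS remS
theorem ne_ : NeS := neS remS
theorem step_ : StepS := stepS tay_ ne_
/-- subexponential propagation -/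
theorem ps : PSS := psS tay_ step_
/-- curve lemma -/
theorem cl : CLS := clS cpS intS

end Crest.Agent.N221.PS
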