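import Mathlib

/-!
Row 221, step A1: real variable tools (note h16-1).
`PSS` subexponential propagation along a chain of contractions, `CLS` curve lemma,
`RmS` Remez for almost polynomial curves, `StairS` no devil staircase.
-/

set_option autoImplicit false

open Set Metric Finset
open scoped ContDiff Nat Topology

namespace Crest.Agent.N221.PS

/-- Taylor polynomial of degree `≤ n` at `0` -/
noncomputable def tay {E V : Type} [NormedAddCommGroup E] [NormedSpace ℝ E]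
    [NormedAddCommGroup V] [NormedSpace ℝ V] (n : ℕ) (f : E → V) (x : E) : V :=
  ∑ i ∈ range (n + 1), (i ! : ℝ)⁻¹ • iteratedFDeriv ℝ i f 0 (fun _ => x)

/-- Remez inequality on an interval with an exponential constant.  Proof: Lagrange interpolation
at the nodes `k l / n`, `k ≤ n` (`Lagrange.eq_interpolate` for the monomials `X ^ i`),
`∏_{j ≠ k} |k - j| = k! (n-k)!`, `∑_k 1 / (k! (n-k)!) = 2^n / n!`, `n^n / n! ≤ e^n`, `2 e ≤ 6`. -/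
def RemS : Prop := ∀ (V : Type) [NormedAddCommGroup V] [NormedSpace ℝ V] (n : ℕ) (c : ℕ → V)
  (l L η : ℝ), 0 < l → l ≤ L → (∀ t ∈ Icc 0 l, ‖∑ i ∈ range (n + 1), t ^ i • c i‖ ≤ η) →
  ∀ t ∈ Icc 0 L, ‖∑ i ∈ range (n + 1), t ^ i • c i‖ ≤ (6 * L / l) ^ n * η

/-- Taylor remainder, Remez along rays, uniqueness, size of the Taylor polynomial -/
def TayS : Prop := ∀ (E V : Type) [NormedAddCommGroup E] [NormedSpace ℝ E]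
  [NormedAddCommGroup V] [NormedSpace ℝ V] [CompleteSpace V] (n : ℕ),
  (∀ (f : E → V) (R D : ℝ), ContDiffOn ℝ ∞ f (ball 0 R) →
    (∀ x ∈ ball (0 : E) R, ‖iteratedFDeriv ℝ (n + 1) f x‖ ≤ D) →
    ∀ x ∈ ball (0 : E) R, ‖f x - tay n f x‖ ≤ D * ‖x‖ ^ (n + 1)) ∧
  (∀ (f : E → V) (r L η : ℝ), 0 < r → r ≤ L → (∀ x : E, ‖x‖ ≤ r → ‖tay n f x‖ ≤ η) →
    ∀ x : E, ‖x‖ ≤ L → ‖tay n f x‖ ≤ (6 * L / r) ^ n * η) ∧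
  (∀ (f g : E → V) (r K : ℝ), 0 < r → ContDiffOn ℝ ∞ f (ball 0 r) → ContDiffOn ℝ ∞ g (ball 0 r) →
    (∀ x ∈ ball (0 : E) r, ‖f x - g x‖ ≤ K * ‖x‖ ^ (n + 1)) → tay n f = tay n g) ∧
  (∀ (f : E → V) (L η : ℝ), 1 ≤ L → (∀ i ≤ n, ‖iteratedFDeriv ℝ i f 0‖ ≤ η) →
    ∀ x : E, ‖x‖ ≤ L → ‖tay n f x‖ ≤ (n + 1) * L ^ n * η) ∧
  (∀ f : E → V, ContDiff ℝ ∞ (tay n f))

/-- the derivatives of a polynomial are bounded by its sup norm (finite dimensional norm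
equivalence on the tuples of multilinear maps, modulo those vanishing on the diagonal) -/
def NeS : Prop := ∀ (E V : Type) [NormedAddCommGroup E] [NormedSpace ℝ E] [FiniteDimensional ℝ E]
  [NormedAddCommGroup V] [NormedSpace ℝ V] [FiniteDimensional ℝ V] (n k : ℕ) (R : ℝ), 0 < R →
  ∃ C : ℝ, 0 < C ∧ ∀ (f : E → V) (η : ℝ), (∀ x : E, ‖x‖ ≤ R → ‖tay n f x‖ ≤ η) →
    ∀ i ≤ k, ∀ y : E, ‖y‖ ≤ R → ‖iteratedFDeriv ℝ i (tay n f) y‖ ≤ C * η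

/-- a linear cocycle `A` over a chain `ψ` of contractions of the ball, and a pulled back family -/
structure Chain {E V : Type} [NormedAddCommGroup E] [NormedSpace ℝ E]
    [NormedAddCommGroup V] [NormedSpace ℝ V] (R q b : ℝ) (c : ℕ → ℝ) (T : ℕ) (ψ : ℕ → E → E)
    (A : ℕ → E → V →L[ℝ] V) (f : ℕ → E → V) : Prop where
  sψ : ∀ j < T, ContDiffOn ℝ ∞ (ψ j) (ball 0 R)
  sA : ∀ j < T, ContDiffOn ℝ ∞ (A j) (ball 0 R)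
  con : ∀ j < T, ∀ x ∈ ball (0 : E) R, ‖ψ j x‖ ≤ q * ‖x‖
  dψ : ∀ j < T, ∀ k, ∀ x ∈ ball (0 : E) R, ‖iteratedFDeriv ℝ k (ψ j) x‖ ≤ c k
  dA : ∀ j < T, ∀ k, ∀ x ∈ ball (0 : E) R, ‖iteratedFDeriv ℝ k (A j) x‖ ≤ c k
  nA : ∀ j < T, ∀ x ∈ ball (0 : E) R, ‖A j x‖ ≤ b
  iA : ∀ j < T, ∀ x ∈ ball (0 : E) R, ∀ v, ‖v‖ ≤ b * ‖A j x v‖
  sur : ∀ j < T, ∀ y : E, ‖y‖ < R / b → ∃ x : E, ‖x‖ ≤ b * ‖y‖ ∧ ψ j x = y
  rel : ∀ j < T, ∀ x ∈ ball (0 : E) R, f j x = A j x (f (j + 1) (ψ j x))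
  smf : ContDiffOn ℝ ∞ (f T) (ball 0 R)

/-- one step of a chain: all members are smooth; the Taylor remainder constant contracts by
`b q^(n+1)`, the Taylor polynomial on a small ball grows by at most `2 b (6 b)^n`.
Proof: `P = tay n (f (j+1))`, `g = A j (P ∘ ψ j)` has `‖D^(n+1) g‖ ≤ K p` (`NeS`,
`norm_iteratedFDerivWithin_comp_le`, `norm_iteratedFDerivWithin_clm_apply` on the open ball),
`‖f j - g‖ ≤ b ρ (q ‖x‖)^(n+1)`, so `tay n (f j) = tay n g`.  Second part: let `s` be the sup of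
`‖P‖` on the ball `r`; for `‖y‖ ≤ r / b` write `y = ψ x`, `‖P y‖ ≤ b ‖g x‖ ≤ b (p + K p_R r^(n+1))`,
`p_R ≤ (6 R / r)^n s`, `s ≤ (6 b)^n sup_{r / b}`; absorb for `r ≤ r0`. -/
def StepS : Prop := ∀ (E V : Type) [NormedAddCommGroup E] [NormedSpace ℝ E] [FiniteDimensional ℝ E]
  [NormedAddCommGroup V] [NormedSpace ℝ V] [FiniteDimensional ℝ V] (R q b : ℝ) (c : ℕ → ℝ) (n : ℕ),
  0 < R → 0 < q → q < 1 → 1 ≤ b → ∃ K r0 : ℝ, 0 < K ∧ 0 < r0 ∧ r0 < R ∧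
  ∀ (T : ℕ) (ψ : ℕ → E → E) (A : ℕ → E → V →L[ℝ] V) (f : ℕ → E → V), Chain R q b c T ψ A f →
    (∀ j ≤ T, ContDiffOn ℝ ∞ (f j) (ball 0 R)) ∧ ∀ j < T,
    (∀ ρ p : ℝ, 0 ≤ ρ →
      (∀ x ∈ ball (0 : E) R, ‖f (j + 1) x - tay n (f (j + 1)) x‖ ≤ ρ * ‖x‖ ^ (n + 1)) →
      (∀ x : E, ‖x‖ ≤ R → ‖tay n (f (j + 1)) x‖ ≤ p) →
      ∀ x ∈ ball (0 : E) R,
        ‖f j x - tay n (f j) x‖ ≤ (b * q ^ (n + 1) * ρ + K * p) * ‖x‖ ^ (n + 1)) ∧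
    (∀ p : ℝ, (∀ x : E, ‖x‖ ≤ r0 → ‖tay n (f j) x‖ ≤ p) →
      ∀ x : E, ‖x‖ ≤ r0 → ‖tay n (f (j + 1)) x‖ ≤ 2 * b * (6 * b) ^ n * p)

/-- the numerical core of `PSS` (Pliss times for the slopes `2^l N0`, Abel summation) -/
def NumS : Prop := ∀ (q b B R α δ : ℝ) (d K : ℕ → ℝ), 0 < q → q < 1 → 1 ≤ b → 1 ≤ B → 0 < R →
  0 < α → 0 < δ → (∀ n, 0 ≤ K n) → (∀ n, 0 ≤ d n) → ∃ (n0 : ℕ) (C : ℝ), 0 < C ∧
  ∀ (T : ℕ) (η : ℝ) (M : ℕ → ℝ) (ρ P : ℕ → ℕ → ℝ), 0 ≤ η →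
    (∀ j < T, M j ≤ b * M (j + 1)) → M T ≤ d 0 * Real.exp (α * T) →
    (∀ n ≤ n0, ρ n T ≤ d (n + 1) * Real.exp (α * T)) →
    (∀ n ≤ n0, ∀ j < T, ρ n j ≤ 2 * b * q ^ (n + 1) * ρ n (j + 1) + K n * M (j + 1)) →
    (∀ n ≤ n0, ∀ j ≤ T, P n j ≤ K n * B ^ ((n + 1) * j) * η) →
    (∀ n ≤ n0, ∀ j i, j + i ≤ T →
      M j ≤ b ^ i * (P n (j + i) + ρ n (j + i) * (q ^ i * R) ^ (n + 1))) →
    M 0 ≤ C * Real.exp (δ * T) * (η + Real.exp (-(α * T)))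

/-- SUBEXPONENTIAL PROPAGATION: the jet at the base point controls the sup on the whole ball -/
def PSS : Prop := ∀ (E V : Type) [NormedAddCommGroup E] [NormedSpace ℝ E] [FiniteDimensional ℝ E]
  [NormedAddCommGroup V] [NormedSpace ℝ V] [FiniteDimensional ℝ V] (R q b α δ : ℝ) (c d : ℕ → ℝ),
  0 < R → 0 < q → q < 1 → 1 ≤ b → 0 < α → 0 < δ → ∃ (n : ℕ) (C : ℝ), 0 < C ∧
  ∀ (T : ℕ) (ψ : ℕ → E → E) (A : ℕ → E → V →L[ℝ] V) (f : ℕ → E → V) (η : ℝ),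
    Chain R q b c T ψ A f →
    (∀ k, ∀ x ∈ ball (0 : E) R, ‖iteratedFDeriv ℝ k (f T) x‖ ≤ d k * Real.exp (α * T)) →
    (∀ i ≤ n, ‖iteratedFDeriv ℝ i (f 0) 0‖ ≤ η) →
    ∀ x ∈ ball (0 : E) R, ‖f 0 x‖ ≤ C * Real.exp (δ * T) * (η + Real.exp (-(α * T)))

/-- derivative profile of a tiny almost polynomial curve -/
def Prof {E : Type} [NormedAddCommGroup E] [NormedSpace ℝ E] (y : ℝ → E) (τ w H : ℝ) (n : ℕ) :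
    Prop :=
  ∀ j, 1 ≤ j → j ≤ n → ‖iteratedDeriv j y τ‖ ≤ w ∧ ‖iteratedDeriv j y τ‖ ≤ H * w ^ Nat.log 2 j

/-- the nonlinear part of the derivative of a composition.  Proof: strong induction on `n` (for all
`F`, `G`): `∂^(n+1) (G ∘ y) = ∂^n (DG(y) y') = ∑ choose n i ∂^i (DG ∘ y) ∂^(n+1-i) y`; the term
`i = 0` is the linear one; for `i ≥ 1` use the `H` bound on the larger of `i`, `n+1-i` and the `w`
bound on the other, `Nat.log 2 (n+1) ≤ Nat.log 2 (max) + 1`. -/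
def CPS : Prop := ∀ (n : ℕ) (c : ℝ), 1 ≤ c → ∃ C : ℝ, 1 ≤ C ∧
  ∀ (E F : Type) [NormedAddCommGroup E] [NormedSpace ℝ E] [NormedAddCommGroup F] [NormedSpace ℝ F]
    (y : ℝ → E) (G : E → F) (τ w H : ℝ), ContDiffAt ℝ ∞ y τ → ContDiffAt ℝ ∞ G (y τ) →
    0 ≤ w → w ≤ 1 → 0 ≤ H → (∀ k, 1 ≤ k → k ≤ n + 1 → ‖iteratedFDeriv ℝ k G (y τ)‖ ≤ c) →
    Prof y τ w H n →
    ‖iteratedDeriv (n + 1) (G ∘ y) τ - fderiv ℝ G (y τ) (iteratedDeriv (n + 1) y τ)‖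
        ≤ C * (H * w ^ Nat.log 2 (n + 1)) ∧
      ‖iteratedDeriv (n + 1) (G ∘ y) τ - fderiv ℝ G (y τ) (iteratedDeriv (n + 1) y τ)‖ ≤ C * w

/-- interpolation on `[0,1]`.  Proof: Taylor at `t`, nodes `t ± k / (2 N)` on the side with room,
the coefficients of a polynomial are fixed linear combinations of its values at the nodes. -/
def IntS : Prop := ∀ N : ℕ, ∃ C : ℝ, 1 ≤ C ∧
  ∀ (V : Type) [NormedAddCommGroup V] [NormedSpace ℝ V] [CompleteSpace V] (f : ℝ → V)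
    (m0 mN : ℝ), (∀ t ∈ Icc (0 : ℝ) 1, ContDiffAt ℝ ∞ f t) → (∀ t ∈ Icc (0 : ℝ) 1, ‖f t‖ ≤ m0) →
    (∀ t ∈ Icc (0 : ℝ) 1, ‖iteratedDeriv N f t‖ ≤ mN) →
    ∀ j ≤ N, ∀ t ∈ Icc (0 : ℝ) 1, ‖iteratedDeriv j f t‖ ≤ C * (m0 + mN)

/-- Remez for an almost polynomial curve -/
def RmS : Prop := ∀ (V : Type) [NormedAddCommGroup V] [NormedSpace ℝ V] [CompleteSpace V] (n : ℕ)
  (f : ℝ → V) (l η ε : ℝ), 0 < l → l ≤ 1 → (∀ t ∈ Icc (0 : ℝ) 1, ContDiffAt ℝ ∞ f t) →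
  (∀ t ∈ Icc 0 l, ‖f t‖ ≤ η) → (∀ t ∈ Icc (0 : ℝ) 1, ‖iteratedDeriv (n + 1) f t‖ ≤ ε) →
  ∀ t ∈ Icc (0 : ℝ) 1, ‖f t‖ ≤ (6 / l) ^ n * (η + ε) + ε

/-- CURVE LEMMA: a curve that is almost polynomial at time `T` and stays tiny on `[S0, T]` is
almost polynomial of bounded degree at all these times, and so is any smooth image of it -/
def CLS : Prop := ∀ (R a g α β K : ℝ) (c d : ℕ → ℝ), 0 < R → 0 ≤ a → 0 < g → 0 ≤ α → 0 ≤ β →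
  ∃ N1 : ℕ, ∀ N, N1 ≤ N → ∃ T0 : ℕ,
  ∀ (E F : Type) [NormedAddCommGroup E] [NormedSpace ℝ E] [CompleteSpace E]
    [NormedAddCommGroup F] [NormedSpace ℝ F] (S0 T : ℕ) (Φ : ℕ → E → E) (x : ℕ → ℝ → E), T0 ≤ T →
    (∀ S, S0 ≤ S → S < T → ContDiffOn ℝ ∞ (Φ S) (ball 0 R) ∧ ∀ y ∈ ball (0 : E) R,
      ‖fderiv ℝ (Φ S) y‖ ≤ a ∧ ∀ k, 1 ≤ k → ‖iteratedFDeriv ℝ k (Φ S) y‖ ≤ c k) →
    (∀ S, S0 ≤ S → S < T → ∀ τ ∈ Icc (0 : ℝ) 1, x S =ᶠ[𝓝 τ] Φ S ∘ x (S + 1)) →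
    (∀ τ ∈ Icc (0 : ℝ) 1, ContDiffAt ℝ ∞ (x T) τ) →
    (∀ S, S0 ≤ S → S ≤ T → ∀ τ ∈ Icc (0 : ℝ) 1, ‖x S τ‖ ≤ K * Real.exp (-(2 * g * T))) →
    (∀ j, 1 ≤ j → ∀ τ ∈ Icc (0 : ℝ) 1, ‖iteratedDeriv j (x T) τ‖ ≤
      d j * Real.exp (α * T) * Real.exp (-(g * T)) ^ Nat.log 2 j) →
    ∀ S, S0 ≤ S → S ≤ T → ∀ τ ∈ Icc (0 : ℝ) 1, ContDiffAt ℝ ∞ (x S) τ ∧
      (∀ j, 1 ≤ j → j ≤ N → ‖iteratedDeriv j (x S) τ‖ ≤ Real.exp (-(g * T))) ∧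
      ∀ G : E → F, ContDiffOn ℝ ∞ G (ball 0 R) →
        (∀ y ∈ ball (0 : E) R, ∀ k, 1 ≤ k → ‖iteratedFDeriv ℝ k G y‖ ≤ c k) →
        ‖iteratedDeriv N (G ∘ x S) τ‖ ≤ Real.exp (-(β * T))


end Crest.Agent.N221.PS
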